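import Vale.Agent.P301Z.Ry.Defs

/-! P301, block RAY: the marked period is open and has countably many critical points. -/

open scoped Topology Matrix
open Filter Set Metric

namespace Vale.Agent.P301Z.Ry.Crit

theorem ap_mul (M N : Matrix (Fin 3) (Fin 3) ℝ) (v : Fin 3 → ℂ) :
    ap (M * N) v = ap M (ap N v) := by
  funext i
  simp only [ap, Matrix.mul_apply, Fin.sum_univ_three]
  push_cast
  ring

theorem ap_one (v : Fin 3 → ℂ) : ap 1 v = v := by
  funext i
  fin_cases i <;> simp [ap, Matrix.one_apply]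

theorem ap_smul (M : Matrix (Fin 3) (Fin 3) ℝ) (k : ℂ) (v : Fin 3 → ℂ) :
    ap M (k • v) = k • ap M v := by
  funext i
  simp only [ap, Pi.smul_apply, smul_eq_mul]
  ring

theorem tau_smul (k : ℂ) (hk : k ≠ 0) (v : Fin 3 → ℂ) : tau (k • v) = tau v := by
  simp only [tau, Pi.smul_apply, smul_eq_mul]
  exact mul_div_mul_left _ _ hk

theorem punct (w : ℂ) (r : ℝ) (hr : 0 < r) : IsPreconnected (ball w r \ {w}) := by
  have h : ball w r \ {w} = (fun z => w + Complex.exp z) '' {z : ℂ | z.re < Real.log r} := by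
    ext u
    constructor
    · rintro ⟨h1, h2⟩
      have h3 : u - w ≠ 0 := sub_ne_zero.2 h2
      refine ⟨Complex.log (u - w), ?_, ?_⟩
      · rw [mem_ofPred_eq, Complex.log_re]
        exact Real.log_lt_log (norm_pos_iff.2 h3) (by rwa [mem_ball, dist_eq_norm] at h1)
      · simp only [Complex.exp_log h3]
        ring
    · rintro ⟨z, hz, rfl⟩
      refine ⟨?_, ?_⟩
      · rw [mem_ball, dist_eq_norm, add_sub_cancel_left, Complex.norm_exp]
        exact (Real.lt_log_iff_exp_lt hr).1 hz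
      · simp [Complex.exp_ne_zero]
  rw [h]
  exact (convex_halfSpace_re_lt _).isPreconnected.image _ (by fun_prop)

theorem lc (Z : Set ℂ) (h : ∀ x ∈ Z, ∃ V ∈ 𝓝[Z] x, V.Countable) : Z.Countable := by
  choose! V hV hc using h
  obtain ⟨t, ht, htc, hs⟩ := TopologicalSpace.countable_cover_nhdsWithin hV
  exact (htc.biUnion fun x hx => hc x (ht hx)).mono hs

section
variable {ε : ℝ} {G : Type} [Group G] {ρ : G →* Matrix (Fin 3) (Fin 3) ℝ}
  {C : Type} [TopologicalSpace C] {S : Set C} {ch : C → OpenPartialHomeomorph C ℂ}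
  {A : Type} {U : A → Set C} {g : A → A → C → G} {s : A → C → Fin 3 → ℂ}

/-- the marked period -/
noncomputable def ph (ρ : G →* Matrix (Fin 3) (Fin 3) ℝ) (s : A → C → Fin 3 → ℂ) (a : A) (m : G)
    (t : C) : ℂ := tau (ap (ρ m) (s a t))

theorem dom (hL : LIN) (hA : Arith ε ρ) (hP : Per ε ρ S ch U g s) {a : A} (m : G) {t : C}
    (ht : t ∈ U a) : Dom ε (ap (ρ m) (s a t)) :=
  (hL ε hA.pos).2.2.1 _ _ (hA.iso m) (hP.dom a t ht)

theorem ana (hL : LIN) (hA : Arith ε ρ) (hP : Per ε ρ S ch U g s) (a : A) (m : G) (c : C) :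
    AnalyticOnNhd ℂ (fun w => ph ρ s a m ((ch c).symm w))
      ((ch c).target ∩ (ch c).symm ⁻¹' U a) := by
  refine DifferentiableOn.analyticOnNhd ?_ ((ch c).isOpen_inter_preimage_symm (hP.opn a))
  have h : ∀ i, DifferentiableOn ℂ (fun w => ap (ρ m) (s a ((ch c).symm w)) i)
      ((ch c).target ∩ (ch c).symm ⁻¹' U a) := fun i =>
    (((hP.hol a c 0).const_mul _).add ((hP.hol a c 1).const_mul _)).add
      ((hP.hol a c 2).const_mul _)
  exact (h 1).div (h 2) fun w hw => ((hL ε hA.pos).1 _ (dom hL hA hP m hw.2)).1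

/-- change of chart of the cover -/
theorem chg (hL : LIN) (hA : Arith ε ρ) (hP : Per ε ρ S ch U g s) {a b : A} (m : G) {t : C}
    (ha : t ∈ U a) (hb : t ∈ U b) : ph ρ s a m =ᶠ[𝓝 t] ph ρ s b (m * g a b t) := by
  filter_upwards [hP.loc a b t ha hb, (hP.opn a).mem_nhds ha, (hP.opn b).mem_nhds hb]
    with t' h1 h2 h3
  obtain ⟨k, hk⟩ := hP.chg a b t' h2 h3
  have hk0 : k ≠ 0 := by
    rintro rfl
    have := ((hL ε hA.pos).1 _ (hP.dom a t' h2)).1
    rw [hk] at this
    simp at this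
  rw [ph, ph, hk, ap_smul, tau_smul _ hk0, map_mul, ap_mul, h1]

/-- the marking does not matter -/
theorem mark (hL : LIN) (hA : Arith ε ρ) (hP : Per ε ρ S ch U g s) {a : A} {m : G} {t : C}
    (ha : t ∈ U a) (h : ∀ᶠ t' in 𝓝 t, ph ρ s a m t' = ph ρ s a m t) :
    ∀ᶠ t' in 𝓝 t, ∃ k : ℂ, k ≠ 0 ∧ s a t' = k • s a t := by
  filter_upwards [h, (hP.opn a).mem_nhds ha] with t' h1 h2
  obtain ⟨p1, -, p2⟩ := (hL ε hA.pos).1 _ (dom hL hA hP m ha)
  obtain ⟨q1, -, q2⟩ := (hL ε hA.pos).1 _ (dom hL hA hP m h2)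
  refine ⟨ap (ρ m) (s a t') 2 / ap (ρ m) (s a t) 2, div_ne_zero q1 p1, ?_⟩
  have e : ap (ρ m) (s a t') =
      (ap (ρ m) (s a t') 2 / ap (ρ m) (s a t) 2) • ap (ρ m) (s a t) := by
    have h1' : tau (ap (ρ m) (s a t')) = tau (ap (ρ m) (s a t)) := h1
    generalize ap (ρ m) (s a t') = x at *
    generalize ap (ρ m) (s a t) = y at *
    generalize hx : x 2 = x2 at *
    generalize hy : y 2 = y2 at *
    calc x = x2 • sg ε (tau x) := q2
      _ = (x2 / y2) • (y2 • sg ε (tau y)) := by rw [smul_smul, div_mul_cancel₀ _ p1, h1']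
      _ = (x2 / y2) • y := by rw [← p2]
  have e2 := congrArg (ap (ρ m⁻¹)) e
  rwa [ap_smul, ← ap_mul, ← ap_mul, ← map_mul, inv_mul_cancel, map_one, ap_one, ap_one] at e2

/-- the points where the period is locally constant -/
def Om (ρ : G →* Matrix (Fin 3) (Fin 3) ℝ) (U : A → Set C) (s : A → C → Fin 3 → ℂ) : Set C :=
  {t | ∃ a m, t ∈ U a ∧ ∀ᶠ t' in 𝓝 t, ph ρ s a m t' = ph ρ s a m t}

theorem om_open (hP : Per ε ρ S ch U g s) : IsOpen (Om ρ U s) := by
  rw [isOpen_iff_mem_nhds]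
  rintro t ⟨a, m, ha, h⟩
  filter_upwards [h.eventually_nhds, (hP.opn a).mem_nhds ha] with t' h1 h2
  refine ⟨a, m, h2, ?_⟩
  filter_upwards [h1] with t'' h3
  rw [h3, h1.self_of_nhds]

theorem om_any (hL : LIN) (hA : Arith ε ρ) (hP : Per ε ρ S ch U g s) {t : C}
    (ht : t ∈ Om ρ U s) {b : A} (hb : t ∈ U b) (m' : G) :
    ∀ᶠ t' in 𝓝 t, ph ρ s b m' t' = ph ρ s b m' t := by
  obtain ⟨a, m, ha, h⟩ := ht
  have h1 := chg hL hA hP m ha hb
  have h2 : ∀ᶠ t' in 𝓝 t, ph ρ s b (m * g a b t) t' = ph ρ s b (m * g a b t) t := by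
    filter_upwards [h, h1] with t' e1 e2
    rw [← e2, e1, h1.self_of_nhds]
  filter_upwards [mark hL hA hP hb h2] with t' ⟨k, hk, e⟩
  rw [ph, ph, e, ap_smul, tau_smul _ hk]

theorem ball_of (ch : OpenPartialHomeomorph C ℂ) {t : C} (ht : t ∈ ch.source) {W : Set C}
    (hW : W ∈ 𝓝 t) : ∃ r, 0 < r ∧ ball (ch t) r ⊆ ch.target ∩ ch.symm ⁻¹' W := by
  have h1 : ch.symm ⁻¹' W ∈ 𝓝 (ch t) := by
    rw [← mem_map, ch.symm_map_nhds_eq ht]
    exact hW
  obtain ⟨r, hr, h⟩ := Metric.mem_nhds_iff.1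
    (inter_mem (ch.open_target.mem_nhds (ch.map_source ht)) h1)
  exact ⟨r, hr, h⟩

theorem om_closed (hL : LIN) (hA : Arith ε ρ) (hP : Per ε ρ S ch U g s) {t : C} (ht : t ∉ S)
    (hc : t ∈ closure (Om ρ U s)) : t ∈ Om ρ U s := by
  obtain ⟨a, ha⟩ := hP.cov t ht
  obtain ⟨r, hr, hB⟩ := ball_of (ch t) (hP.mem t) ((hP.opn a).mem_nhds ha)
  have hn : (ch t).source ∩ ch t ⁻¹' ball (ch t t) r ∈ 𝓝 t :=
    ((ch t).isOpen_inter_preimage isOpen_ball).mem_nhds ⟨hP.mem t, mem_ball_self hr⟩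
  obtain ⟨t1, ⟨h1, h2⟩, h3⟩ := mem_closure_iff_nhds.1 hc _ hn
  have h4 : t1 ∈ U a := by
    have := (hB h2).2
    rwa [mem_preimage, (ch t).left_inv h1] at this
  have h5 := om_any hL hA hP h3 h4 1
  rw [← (ch t).symm_map_nhds_eq h1, eventually_map] at h5
  have h6 := ((ana hL hA hP a 1 t).mono hB).eqOn_of_preconnected_of_eventuallyEq
    (g := fun _ => ph ρ s a 1 t1) analyticOnNhd_const (convex_ball _ _).isPreconnected h2 h5
  refine ⟨a, 1, ha, ?_⟩
  have h7 : ∀ t' ∈ (ch t).source ∩ ch t ⁻¹' ball (ch t t) r, ph ρ s a 1 t' = ph ρ s a 1 t1 := by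
    intro t' h'
    have := h6 h'.2
    simp only [(ch t).left_inv h'.1] at this
    exact this
  filter_upwards [hn] with t' h'
  rw [h7 t' h', h7 t (mem_of_mem_nhds hn)]

theorem om_empty [T2Space C] [PreconnectedSpace C] (hL : LIN) (hA : Arith ε ρ)
    (hP : Per ε ρ S ch U g s) (t : C) : t ∉ Om ρ U s := by
  have hcl : IsClosed (interior (S ∪ Om ρ U s)) := by
    refine isClosed_of_closure_subset fun c hc => ?_
    have hS : (S \ {c})ᶜ ∈ 𝓝 c :=
      (hP.fin.subset sdiff_subset).isClosed.isOpen_compl.mem_nhds (by simp)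
    obtain ⟨r, hr, hB⟩ := ball_of (ch c) (hP.mem c) hS
    have hoff : ∀ w ∈ ball (ch c c) r \ {ch c c}, (ch c).symm w ∉ S := by
      intro w hw hs
      refine (hB hw.1).2 ⟨hs, fun h => hw.2 ?_⟩
      have h' : (ch c).symm w = c := h
      have := (ch c).right_inv (hB hw.1).1
      rw [h'] at this
      exact this.symm
    have hcont : ∀ w ∈ ball (ch c c) r, ContinuousAt (ch c).symm w := fun w hw =>
      (ch c).continuousAt_symm (hB hw).1
    have hn : (ch c).source ∩ ch c ⁻¹' ball (ch c c) r ∈ 𝓝 c :=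
      ((ch c).isOpen_inter_preimage isOpen_ball).mem_nhds ⟨hP.mem c, mem_ball_self hr⟩
    obtain ⟨t1, ⟨h1, h2⟩, h3⟩ := mem_closure_iff_nhds.1 hc _ hn
    have hO : IsOpen ((ch c).target ∩ (ch c).symm ⁻¹' Om ρ U s) :=
      (ch c).isOpen_inter_preimage_symm (om_open hP)
    have hne : ((ball (ch c c) r \ {ch c c}) ∩
        ((ch c).target ∩ (ch c).symm ⁻¹' Om ρ U s)).Nonempty := by
      have h4 : (ch c).symm ⁻¹' (S ∪ Om ρ U s) ∈ 𝓝 (ch c t1) := by
        rw [← mem_map, (ch c).symm_map_nhds_eq h1]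
        exact mem_interior_iff_mem_nhds.1 h3
      obtain ⟨w, hw1, hw2⟩ := (dense_compl_singleton (ch c c)).inter_nhds_nonempty
        (inter_mem h4 (isOpen_ball.mem_nhds h2))
      have hw : w ∈ ball (ch c c) r \ {ch c c} := ⟨hw2.2, hw1⟩
      exact ⟨w, hw, (hB hw.1).1, hw2.1.resolve_left (hoff w hw)⟩
    have hall := (punct (ch c c) r hr).subset_of_closure_inter_subset hO hne (by
      rintro w ⟨hw1, hw2⟩
      refine ⟨(hB hw2.1).1, om_closed hL hA hP (hoff w hw2) ?_⟩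
      exact (hcont w hw2.1).continuousWithinAt.mem_closure hw1 fun u hu => hu.2)
    have hcen : c ∈ S ∪ Om ρ U s := by
      by_cases hcs : c ∈ S
      · exact Or.inl hcs
      · refine Or.inr (om_closed hL hA hP hcs ?_)
        have h5 : ch c c ∈ closure (ball (ch c c) r \ {ch c c}) := by
          rw [mem_closure_iff_nhds]
          intro V hV
          obtain ⟨w, hw1, hw2⟩ := (dense_compl_singleton (ch c c)).inter_nhds_nonempty
            (inter_mem hV (ball_mem_nhds _ hr))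
          exact ⟨w, hw2.1, hw2.2, hw1⟩
        have h6 := (hcont _ (mem_ball_self hr)).continuousWithinAt.mem_closure h5
          (t := Om ρ U s) fun u hu => (hall hu).2
        rwa [(ch c).left_inv (hP.mem c)] at h6
    rw [mem_interior_iff_mem_nhds]
    filter_upwards [hn] with t' h'
    by_cases e : ch c t' = ch c c
    · rw [(ch c).injOn h'.1 (hP.mem c) e]
      exact hcen
    · have := (hall ⟨h'.2, e⟩).2
      rw [mem_preimage, (ch c).left_inv h'.1] at this
      exact Or.inr this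
  intro ht
  rcases isClopen_iff.1 ⟨hcl, isOpen_interior⟩ with h | h
  · have : t ∈ interior (S ∪ Om ρ U s) :=
      interior_maximal subset_union_right (om_open hP) ht
    rw [h] at this
    exact this
  · obtain ⟨a, t0, ha, hn⟩ := hP.ncst
    have h0 : t0 ∈ S ∪ Om ρ U s := interior_subset (by rw [h]; trivial)
    refine hn ?_
    filter_upwards [mark hL hA hP ha (om_any hL hA hP (h0.resolve_left (hP.off a t0 ha)) ha 1)]
      with t' ⟨k, _, e⟩
    exact ⟨k, e⟩

/-- critical points in one chart, for one marking -/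
theorem cnt1 [T2Space C] [PreconnectedSpace C] (hL : LIN) (hA : Arith ε ρ)
    (hP : Per ε ρ S ch U g s) (a : A) (m : G) (c : C) :
    {w | w ∈ (ch c).target ∩ (ch c).symm ⁻¹' U a ∧
      deriv (fun w => ph ρ s a m ((ch c).symm w)) w = 0}.Countable := by
  refine lc _ fun w hw => ⟨{w}, ?_, countable_singleton w⟩
  have hF := ana hL hA hP a m c
  rcases (hF w hw.1).deriv.eventually_eq_zero_or_eventually_ne_zero with h | h
  · exfalso
    obtain ⟨r, hr, hB⟩ := Metric.mem_nhds_iff.1 (inter_mem h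
      (((ch c).isOpen_inter_preimage_symm (hP.opn a)).mem_nhds hw.1))
    refine om_empty hL hA hP ((ch c).symm w) ⟨a, m, hw.1.2, ?_⟩
    have h1 := (ch c).symm_map_nhds_eq ((ch c).map_target hw.1.1)
    rw [(ch c).right_inv hw.1.1] at h1
    rw [← h1, eventually_map]
    filter_upwards [ball_mem_nhds w hr] with u hu
    exact isOpen_ball.is_const_of_deriv_eq_zero (convex_ball w r).isPreconnected
      (hF.differentiableOn.mono fun z hz => (hB hz).2) (fun z hz => (hB hz).1) hu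
      (mem_ball_self hr)
  · rw [eventually_nhdsWithin_iff] at h
    rw [mem_nhdsWithin_iff_eventually]
    filter_upwards [h] with u hu hu'
    by_contra e
    exact hu e hu'.2

/-- critical points in one chart -/
theorem cnt2 [T2Space C] [PreconnectedSpace C] [Countable G] (hL : LIN) (hA : Arith ε ρ)
    (hP : Per ε ρ S ch U g s) (c : C) :
    {w | ∃ a m, w ∈ (ch c).target ∩ (ch c).symm ⁻¹' U a ∧
      deriv (fun w => ph ρ s a m ((ch c).symm w)) w = 0}.Countable := by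
  refine lc _ ?_
  rintro w ⟨b, -, hb, -⟩
  refine ⟨_, ?_, countable_iUnion fun m => cnt1 hL hA hP b m c⟩
  rw [mem_nhdsWithin_iff_eventually]
  filter_upwards [((ch c).isOpen_inter_preimage_symm (hP.opn b)).mem_nhds hb] with u hu
  rintro ⟨a, m, ha, hd⟩
  refine mem_iUnion.2 ⟨m * g a b ((ch c).symm u), hu, ?_⟩
  have h1 := (chg hL hA hP m ha.2 hu.2).comp_tendsto ((ch c).continuousAt_symm hu.1)
  rw [← hd]
  exact h1.symm.deriv_eq

end

end Vale.Agent.P301Z.Ry.Crit

namespace Vale.Agent.P301Z.Ry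

theorem opn (hL : LIN) : OPN := by
  intro ε G _ ρ C _ _ _ _ S ch A U g s hA hP a t m ha
  have ht := hP.mem t
  have hF := Crit.ana hL hA hP a m t (ch t t)
    ⟨(ch t).map_source ht, by rwa [mem_preimage, (ch t).left_inv ht]⟩
  rcases hF.eventually_constant_or_nhds_le_map_nhds with h | h
  · exfalso
    refine Crit.om_empty hL hA hP t ⟨a, m, ha, ?_⟩
    rw [(ch t).left_inv ht] at h
    rw [← (ch t).symm_map_nhds_eq ht, eventually_map]
    exact h
  · rw [(ch t).left_inv ht] at h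
    rw [← (ch t).symm_map_nhds_eq ht, map_map]
    exact h

theorem crit (hL : LIN) (hD : DISC) : CRIT := by
  intro ε G _ ρ C _ _ _ _ S ch A U g s hA hP
  have := (hD ε G ρ hA).1
  obtain ⟨Fs, hF⟩ := isCompact_univ.elim_finite_subcover (fun c => (ch c).source)
    (fun c => (ch c).open_source) fun c _ => mem_iUnion.2 ⟨c, hP.mem c⟩
  refine ⟨_, Fs.countable_toSet.biUnion fun c _ =>
    (Crit.cnt2 hL hA hP c).image (ch c).symm, ?_⟩
  intro a t m ha hR
  obtain ⟨c, hc, ht⟩ := mem_iUnion₂.1 (hF (mem_univ t))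
  have hw : ch c t ∈ (ch c).target ∩ (ch c).symm ⁻¹' U a :=
    ⟨(ch c).map_source ht, by rwa [mem_preimage, (ch c).left_inv ht]⟩
  have hd : deriv (fun w => Crit.ph ρ s a m ((ch c).symm w)) (ch c t) ≠ 0 := fun h =>
    hR (mem_iUnion₂.2 ⟨c, hc, ch c t, ⟨a, m, hw, h⟩, (ch c).left_inv ht⟩)
  have hs := ((Crit.ana hL hA hP a m c _ hw).hasStrictDerivAt).hasStrictFDerivAt_equiv hd
  refine ⟨(ch c).trans (hs.toOpenPartialHomeomorph _),
    ⟨ht, hs.mem_toOpenPartialHomeomorph_source⟩, fun t' h' => ?_⟩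
  show Crit.ph ρ s a m t' = Crit.ph ρ s a m ((ch c).symm (ch c t'))
  rw [(ch c).left_inv h'.1]

end Vale.Agent.P301Z.Ry
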