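import Vale.Agent.P301Z.Ry.Defs

/-! P301, block RAY: discreteness. -/

open scoped Topology Matrix
open Filter Set

namespace Vale.Agent.P301Z.Ry

namespace Disc

theorem ent {ε : ℝ} {M : Matrix (Fin 3) (Fin 3) ℝ} (hM : Mᵀ * Qm ε * M = Qm ε) (i j : Fin 3) :
    M 0 i * M 2 j + M 2 i * M 0 j + ε * (M 1 i * M 1 j) = Qm ε i j := by
  rw [← congrFun (congrFun hM i) j]
  simp [Matrix.mul_apply, Fin.sum_univ_three, Qm]
  ring

theorem qf_ap {ε : ℝ} {M : Matrix (Fin 3) (Fin 3) ℝ} (hM : Mᵀ * Qm ε * M = Qm ε)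
    (v w : Fin 3 → ℂ) : qf ε (ap M v) (ap M w) = qf ε v w := by
  have e : ∀ i j, (M 0 i : ℂ) * M 2 j + M 2 i * M 0 j + ε * (M 1 i * M 1 j) = Qm ε i j :=
    fun i j => by exact_mod_cast ent hM i j
  have e00 := e 0 0
  have e01 := e 0 1
  have e02 := e 0 2
  have e11 := e 1 1
  have e12 := e 1 2
  have e22 := e 2 2
  simp [Qm] at e00 e01 e02 e11 e12 e22
  simp only [qf, ap]
  linear_combination v 0 * w 0 * e00 + (v 0 * w 1 + v 1 * w 0) * e01 +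
    (v 0 * w 2 + v 2 * w 0) * e02 + v 1 * w 1 * e11 + (v 1 * w 2 + v 2 * w 1) * e12 +
    v 2 * w 2 * e22

theorem ap_col {M N : Matrix (Fin 3) (Fin 3) ℝ} (h : M * N = 1) (j : Fin 3) :
    ap M (fun i => N i j) = fun i => ((1 : Matrix (Fin 3) (Fin 3) ℝ) i j : ℂ) := by
  funext i
  rw [← h, Matrix.mul_apply, Fin.sum_univ_three, ap]
  push_cast
  rfl

theorem qf_sg (ε : ℝ) (τ : ℂ) : qf ε (sg ε τ) (star (sg ε τ)) = (2 * ε * τ.im ^ 2 : ℝ) := by
  apply Complex.ext <;> simp [qf, sg, pow_two] <;> ring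

/-- the factor of automorphy -/
theorem fac (hL : LIN) {ε : ℝ} (hε : 0 < ε) {M : Matrix (Fin 3) (Fin 3) ℝ}
    (hM : Mᵀ * Qm ε * M = Qm ε) {τ : ℂ} (hτ : τ.im ≠ 0) :
    ∃ c : ℂ, c ≠ 0 ∧ ap M (sg ε τ) = c • sg ε (act ε M τ) ∧
      ‖c‖ * |(act ε M τ).im| = |τ.im| := by
  obtain ⟨h1, h2, h3, -⟩ := hL ε hε
  obtain ⟨hc, -, e⟩ := h1 _ (h3 M _ hM (h2 τ hτ))
  refine ⟨_, hc, e, ?_⟩
  generalize ap M (sg ε τ) 2 = c at e
  have h4 : star (ap M (sg ε τ)) = ap M (star (sg ε τ)) := by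
    funext i
    simp [ap]
  have h5 := qf_ap hM (sg ε τ) (star (sg ε τ))
  rw [← h4, qf_sg, e] at h5
  have h6 : qf ε (c • sg ε (act ε M τ)) (star (c • sg ε (act ε M τ))) =
      (‖c‖ ^ 2 : ℝ) * qf ε (sg ε (act ε M τ)) (star (sg ε (act ε M τ))) := by
    rw [← Complex.normSq_eq_norm_sq, ← Complex.mul_conj]
    simp only [qf, star_smul, Pi.smul_apply, smul_eq_mul, Complex.star_def]
    ring
  have h7 : ‖c‖ ^ 2 * (2 * ε * (act ε M τ).im ^ 2) = 2 * ε * τ.im ^ 2 := by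
    rw [qf_sg] at h6
    exact_mod_cast h6.symm.trans h5
  rw [← sq_eq_sq₀ (by positivity) (abs_nonneg _), mul_pow, sq_abs, sq_abs]
  exact mul_left_cancel₀ (by positivity : 2 * ε ≠ 0) (by linear_combination h7)

/-- the majorant -/
theorem maj (ε : ℝ) (τ : ℂ) (w : Fin 3 → ℝ) :
    2 * ‖qf ε (sg ε τ) fun i => w i‖ ^ 2 - ε * τ.im ^ 2 * (w 0 * w 2 + w 2 * w 0 + ε * (w 1 * w 1)) =
      2 * (w 0 + ε * τ.re * w 1 - ε * τ.re ^ 2 * w 2 / 2) ^ 2 +
        (ε * τ.im * (w 1 - τ.re * w 2)) ^ 2 + (ε * τ.im ^ 2 * w 2) ^ 2 / 2 := by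
  rw [← Complex.normSq_eq_norm_sq, Complex.normSq_apply]
  simp [qf, sg, pow_two]
  ring

theorem one_le {D : ℕ} {a : ℝ} (h : ∃ k : ℤ, (D : ℝ) * a = k) (ha : a ≠ 0) (hD : 0 < D) :
    1 ≤ D * |a| := by
  obtain ⟨k, hk⟩ := h
  have h1 : k ≠ 0 := by
    rintro rfl
    exact mul_ne_zero (Nat.cast_ne_zero.2 hD.ne') ha (by simpa using hk)
  rw [← Nat.abs_cast D, ← abs_mul, hk]
  exact_mod_cast Int.one_le_abs h1

/-- eventually bounded functions -/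
def Bd {Y : Type} (F : Filter Y) (f : Y → ℝ) : Prop := ∃ K, ∀ᶠ y in F, |f y| ≤ K

variable {Y : Type} {F : Filter Y} {f g : Y → ℝ}

theorem Bd.lim {a : ℝ} (h : Tendsto f F (𝓝 a)) : Bd F f :=
  ⟨|a| + 1, h.abs.eventually (eventually_le_nhds (lt_add_one _))⟩

theorem Bd.const (a : ℝ) : Bd F fun _ => a := Bd.lim tendsto_const_nhds

theorem Bd.add (hf : Bd F f) (hg : Bd F g) : Bd F fun y => f y + g y := by
  obtain ⟨K, hf⟩ := hf
  obtain ⟨L, hg⟩ := hg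
  exact ⟨K + L, (hf.and hg).mono fun y h => (abs_add_le _ _).trans (add_le_add h.1 h.2)⟩

theorem Bd.mul (hf : Bd F f) (hg : Bd F g) : Bd F fun y => f y * g y := by
  obtain ⟨K, hf⟩ := hf
  obtain ⟨L, hg⟩ := hg
  exact ⟨K * L, (hf.and hg).mono fun y h => (abs_mul _ _).trans_le
    (mul_le_mul h.1 h.2 (abs_nonneg _) ((abs_nonneg _).trans h.1))⟩

theorem Bd.congr (hg : Bd F g) (h : ∀ᶠ y in F, f y = g y) : Bd F f := by
  obtain ⟨L, hg⟩ := hg
  exact ⟨L, (h.and hg).mono fun y h => h.1 ▸ h.2⟩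

theorem Bd.sq (hg : Bd F g) (h : ∀ᶠ y in F, f y ^ 2 ≤ g y) : Bd F f := by
  obtain ⟨L, hg⟩ := hg
  refine ⟨1 + L, (h.and hg).mono fun y h => ?_⟩
  nlinarith [h.1, (le_abs_self _).trans h.2, sq_abs (f y), sq_nonneg (|f y| - 1), sq_nonneg (f y)]

theorem bd_vec {ε k : ℝ} (hε : 0 < ε) {τ : Y → ℂ} {τ₀ : ℂ} (h0 : τ₀.im ≠ 0)
    (hτ : Tendsto τ F (𝓝 τ₀)) {w : Y → Fin 3 → ℝ}
    (hk : ∀ y, w y 0 * w y 2 + w y 2 * w y 0 + ε * (w y 1 * w y 1) = k)
    (hz : Bd F fun y => ‖qf ε (sg ε (τ y)) fun i => w y i‖) (i : Fin 3) : Bd F fun y => w y i := by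
  have hx : Tendsto (fun y => (τ y).re) F (𝓝 τ₀.re) := (Complex.continuous_re.tendsto _).comp hτ
  have hy : Tendsto (fun y => (τ y).im) F (𝓝 τ₀.im) := (Complex.continuous_im.tendsto _).comp hτ
  have hn := hy.eventually_ne h0
  have hR : Bd F fun y => 2 * (‖qf ε (sg ε (τ y)) fun i => w y i‖ *
      ‖qf ε (sg ε (τ y)) fun i => w y i‖) + -(ε * (τ y).im ^ 2 * k) :=
    ((Bd.const 2).mul (hz.mul hz)).add (Bd.lim (((hy.pow 2).const_mul ε).mul_const k).neg)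
  have hm := fun y => maj ε (τ y) (w y)
  simp only [hk] at hm
  have ha : Bd F fun y => w y 0 + ε * (τ y).re * w y 1 - ε * (τ y).re ^ 2 * w y 2 / 2 :=
    hR.sq (Eventually.of_forall fun y => by
      nlinarith [hm y, sq_nonneg (ε * (τ y).im * (w y 1 - (τ y).re * w y 2)),
        sq_nonneg (ε * (τ y).im ^ 2 * w y 2),
        sq_nonneg (w y 0 + ε * (τ y).re * w y 1 - ε * (τ y).re ^ 2 * w y 2 / 2)])
  have hb : Bd F fun y => ε * (τ y).im * (w y 1 - (τ y).re * w y 2) :=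
    hR.sq (Eventually.of_forall fun y => by
      nlinarith [hm y, sq_nonneg (ε * (τ y).im ^ 2 * w y 2),
        sq_nonneg (w y 0 + ε * (τ y).re * w y 1 - ε * (τ y).re ^ 2 * w y 2 / 2)])
  have hc : Bd F fun y => ε * (τ y).im ^ 2 * w y 2 :=
    ((Bd.const 2).mul hR).sq (Eventually.of_forall fun y => by
      nlinarith [hm y, sq_nonneg (ε * (τ y).im * (w y 1 - (τ y).re * w y 2)),
        sq_nonneg (w y 0 + ε * (τ y).re * w y 1 - ε * (τ y).re ^ 2 * w y 2 / 2)])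
  have h2 : Bd F fun y => w y 2 :=
    ((Bd.lim (((hy.pow 2).const_mul ε).inv₀ (by positivity))).mul hc).congr
      (hn.mono fun y h => by field_simp)
  have h1 : Bd F fun y => w y 1 :=
    (((Bd.lim ((hy.const_mul ε).inv₀ (mul_ne_zero hε.ne' h0))).mul hb).add
      ((Bd.lim hx).mul h2)).congr (hn.mono fun y h => by field_simp; ring)
  have h3 : Bd F fun y => w y 0 :=
    ((ha.add ((Bd.lim (hx.const_mul (-ε))).mul h1)).add
      ((Bd.lim ((hx.pow 2).const_mul (ε / 2))).mul h2)).congr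
      (Eventually.of_forall fun y => by ring)
  fin_cases i
  exacts [h3, h1, h2]

end Disc

open Disc in
theorem disc (hL : LIN) : DISC := by
  intro ε G _ ρ h
  obtain ⟨D, hD, hden⟩ := h.den
  have hε := h.pos
  have hD' : (0 : ℝ) < D := Nat.cast_pos.2 hD
  choose φ hφ using hden
  have hinj : Function.Injective φ := fun g g' e => h.inj <| by
    ext i j
    exact mul_left_cancel₀ hD'.ne' (by rw [hφ, hφ, e])
  have key : ∀ (g : G) (τ c : ℂ), ap (ρ g) (sg ε τ) = c • sg ε (act ε (ρ g) τ) → ∀ j,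
      qf ε (sg ε τ) (fun i => ρ g⁻¹ i j) = c * qf ε (sg ε (act ε (ρ g) τ))
        fun i => ((1 : Matrix (Fin 3) (Fin 3) ℝ) i j : ℂ) := fun g τ c e j => by
    rw [← qf_ap (h.iso g), ap_col (by rw [← map_mul, mul_inv_cancel, map_one]), e]
    simp only [qf, Pi.smul_apply, smul_eq_mul]
    ring
  refine ⟨hinj.countable, fun τ₀ h0 => ?_, fun Y F τ m τ₀ τ₁ h0 h1 hτ hu => ?_⟩
  · have hy : Tendsto (fun τ : ℂ => |τ.im|) (𝓝 τ₀) (𝓝 |τ₀.im|) :=
      (Complex.continuous_im.tendsto _).abs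
    have hB := (hy.const_mul (D : ℝ)).add ((hy.const_mul ε).inv₀ (by positivity) |>.const_mul (2 * D : ℝ))
    refine ⟨_, ((hB.eventually (eventually_le_nhds (lt_add_one _))).and
      ((Complex.continuous_im.tendsto _).eventually_ne h0)).mono fun τ hτ g => le_trans ?_ hτ.1⟩
    obtain ⟨c, hc, e, hn⟩ := fac hL hε (h.iso g) hτ.2
    have h2 := key g τ c e 0
    have h3 := ent (h.iso g⁻¹) 0 0
    have h4 := maj ε τ fun i => ρ g⁻¹ i 0
    have h5 : (0 : ℝ) < |τ.im| := abs_pos.2 hτ.2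
    have h6 : ‖qf ε (sg ε τ) fun i => ρ g⁻¹ i 0‖ = ‖c‖ := by
      rw [h2]
      simp [qf, sg]
    rw [show Qm ε 0 0 = 0 from rfl] at h3
    rw [h6, h3] at h4
    have h7 := abs_nonneg (act ε (ρ g) τ).im
    rcases eq_or_ne (ρ g⁻¹ 2 0) 0 with h8 | h8
    · have h9 : ρ g⁻¹ 1 0 = 0 := by simpa [h8, hε.ne'] using h3
      have h10 : ‖c‖ = |ρ g⁻¹ 0 0| := by
        rw [← sq_eq_sq₀ (norm_nonneg _) (abs_nonneg _), sq_abs]
        rw [h8, h9] at h4
        linarith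
      have h11 := one_le ⟨_, hφ g⁻¹ 0 0⟩ (abs_pos.1 (h10 ▸ norm_pos_iff.2 hc)) hD
      refine le_add_of_le_of_nonneg ?_ (by positivity)
      rw [← hn, h10, ← mul_assoc]
      exact le_mul_of_one_le_left h7 h11
    · have h11 := one_le ⟨_, hφ g⁻¹ 2 0⟩ h8 hD
      have h12 : ε * |τ.im| ^ 2 * |ρ g⁻¹ 2 0| ≤ 2 * ‖c‖ := by
        rw [← sq_le_sq₀ (by positivity) (by positivity), mul_pow, sq_abs, sq_abs]
        nlinarith [sq_nonneg (ε * τ.im * (ρ g⁻¹ 1 0 - τ.re * ρ g⁻¹ 2 0)),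
          sq_nonneg (ρ g⁻¹ 0 0 + ε * τ.re * ρ g⁻¹ 1 0 - ε * τ.re ^ 2 * ρ g⁻¹ 2 0 / 2)]
      refine le_add_of_nonneg_of_le (by positivity) ?_
      rw [← div_eq_mul_inv, le_div_iff₀ (by positivity)]
      refine le_of_mul_le_mul_right ?_ h5
      calc _ = |(act ε (ρ g) τ).im| * (ε * |τ.im| ^ 2) * 1 := by ring
        _ ≤ |(act ε (ρ g) τ).im| * (ε * |τ.im| ^ 2) * (D * |ρ g⁻¹ 2 0|) := by gcongr
        _ = D * |(act ε (ρ g) τ).im| * (ε * |τ.im| ^ 2 * |ρ g⁻¹ 2 0|) := by ring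
        _ ≤ D * |(act ε (ρ g) τ).im| * (2 * ‖c‖) := by gcongr
        _ = _ := by rw [← hn]; ring
  · have hy := (Complex.continuous_im.tendsto _).comp hτ
    have hv := (Complex.continuous_im.tendsto _).comp hu
    have hb : ∀ j i, Bd F fun y => ρ (m y)⁻¹ i j := fun j => by
      refine bd_vec hε h0 hτ (w := fun y i => ρ (m y)⁻¹ i j) (fun y => ent (h.iso _) j j) ?_
      have hq : Continuous fun u : ℂ => ‖qf ε (sg ε u)
          fun i => ((1 : Matrix (Fin 3) (Fin 3) ℝ) i j : ℂ)‖ := by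
        simp only [qf, sg, Matrix.cons_val]
        fun_prop
      refine ((Bd.lim (hy.abs.div hv.abs (abs_ne_zero.2 h1))).mul
        (Bd.lim ((hq.tendsto _).comp hu))).congr
        (((hy.eventually_ne h0).and (hv.eventually_ne h1)).mono fun y hy => ?_)
      obtain ⟨c, -, e, hn⟩ := fac hL hε (h.iso (m y)) hy.1
      rw [key _ _ c e, norm_mul, ← (eq_div_iff (abs_ne_zero.2 hy.2)).2 hn |>.symm]
      rfl
    choose K hK using hb
    have hfin : {g : G | φ g⁻¹ ∈ Icc (fun i j => -⌈D * K j i⌉) fun i j => ⌈D * K j i⌉}.Finite :=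
      (finite_Icc _ _).preimage (hinj.comp inv_injective).injOn
    have hev : ∀ᶠ y in (F : Filter Y), ∃ g ∈ {g : G | φ g⁻¹ ∈
        Icc (fun i j => -⌈D * K j i⌉) fun i j => ⌈D * K j i⌉}, m y = g := by
      refine (eventually_all.2 fun i => eventually_all.2 fun j => hK j i).mono fun y hy => ?_
      have : ∀ i j, |φ (m y)⁻¹ i j| ≤ ⌈D * K j i⌉ := fun i j => by
        rw [← Int.cast_le (R := ℝ), Int.cast_abs, ← hφ, abs_mul, Nat.abs_cast]
        exact (mul_le_mul_of_nonneg_left (hy i j) hD'.le).trans (Int.le_ceil _)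
      exact ⟨_, ⟨fun i j => (abs_le.1 (this i j)).1, fun i j => (abs_le.1 (this i j)).2⟩, rfl⟩
    obtain ⟨g, -, hg⟩ := (Ultrafilter.eventually_exists_mem_iff hfin).1 hev
    exact ⟨g, hg⟩

end Vale.Agent.P301Z.Ry
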