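import Vale.Agent.P301Z.Ry.Defs

/-! P301, block RAY: a path which leaves every compact part of the punctured curve. -/

open scoped Topology
open Filter Set Metric

namespace Vale.Agent.P301Z.Ry

namespace Esc

/-- A path whose cluster points lie in a finite set converges. -/
lemma conv {C : Type} [TopologicalSpace C] [T2Space C] [CompactSpace C] {S : Set C}
    (hS : S.Finite) {F : Filter ℝ} {J : Set ℝ} {t : ℝ → C} [F.NeBot] (hJ : J.OrdConnected)
    (h1 : ∀ T ∈ J, J ∩ Ioi T ∈ F) (h2 : ∀ V ∈ F, ∃ T ∈ J, J ∩ Ici T ⊆ V)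
    (ht : ContinuousOn t J) (hc : ∀ c, MapClusterPt c F t → c ∈ S) :
    ∃ c ∈ S, Tendsto t F (𝓝 c) := by
  obtain ⟨c, hcl⟩ := exists_clusterPt_of_compactSpace (map t F)
  have hcl' : MapClusterPt c F t := hcl
  refine ⟨c, hc c hcl', ?_⟩
  have hK : IsCompact (S \ {c}) := (hS.subset sdiff_subset).isCompact
  obtain ⟨W, V₀, hW, hV₀, hSW, hcV, hd⟩ := hK.separation_of_notMem (x := c) (by simp)
  rw [_root_.tendsto_nhds]
  intro V hV hcV'
  have hV' : IsOpen (V ∩ V₀) := hV.inter hV₀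
  have hev : ∀ᶠ T in F, t T ∈ (V ∩ V₀) ∪ W := by
    by_contra hn
    have hfr : ∃ᶠ T in F, t T ∈ ((V ∩ V₀) ∪ W)ᶜ := by
      rw [not_eventually] at hn
      exact hn
    obtain ⟨a, ha, hac⟩ :=
      (hV'.union hW).isClosed_compl.isCompact.exists_mapClusterPt_of_frequently hfr
    apply ha
    by_cases hac' : a = c
    · rw [hac']
      exact Or.inl ⟨hcV', hcV⟩
    · exact Or.inr (hSW ⟨hc a hac, hac'⟩)
  obtain ⟨T, hT, hTV⟩ := h2 _ hev
  have hpre : IsPreconnected (t '' (J ∩ Ici T)) :=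
    (hJ.inter ordConnected_Ici).isPreconnected.image t (ht.mono inter_subset_left)
  have hfr := (mapClusterPt_iff_frequently.mp hcl' _ (hV'.mem_nhds ⟨hcV', hcV⟩)).and_eventually
    (h1 T hT)
  obtain ⟨T', hT1, hT2⟩ := hfr.exists
  have hsub := hpre.subset_left_of_subset_union hV' hW
    (hd.symm.mono_left inter_subset_right) (image_subset_iff.mpr hTV)
    ⟨t T', ⟨T', ⟨hT2.1, Ioi_subset_Ici_self hT2.2⟩, rfl⟩, hT1⟩
  filter_upwards [h1 T hT] with x hx
  exact (hsub ⟨x, ⟨hx.1, Ioi_subset_Ici_self hx.2⟩, rfl⟩).1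

/-- A tail of an interval without largest element is open. -/
lemma opn {F : Filter ℝ} {J : Set ℝ} [F.NeBot] (hJ : J.OrdConnected)
    (h1 : ∀ T ∈ J, J ∩ Ioi T ∈ F) {T : ℝ} (hT : T ∈ J) : IsOpen (J ∩ Ioi T) := by
  rw [isOpen_iff_mem_nhds]
  intro x hx
  obtain ⟨y, hy⟩ := Filter.nonempty_of_mem (h1 x hx.1)
  filter_upwards [Ioo_mem_nhds hx.2 hy.2] with z hz
  exact ⟨hJ.out hT hy.1 ⟨hz.1.le, hz.2.le⟩, hz.1⟩

lemma im_eq (w : ℂ) :
    (w / (2 * Real.pi * Complex.I)).im = -(Real.log ‖Complex.exp w‖) / (2 * Real.pi) := by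
  have hp : (Real.pi : ℂ) ≠ 0 := by exact_mod_cast Real.pi_ne_zero
  have e : w / (2 * Real.pi * Complex.I) = -(w * Complex.I) / ((2 * Real.pi : ℝ) : ℂ) := by
    push_cast
    field_simp
    rw [Complex.I_sq]
    ring
  rw [e, Complex.div_ofReal_im, Complex.norm_exp, Real.log_exp]
  simp

end Esc

theorem esc : ESC := by
  intro C _ _ _ S ch r hS hsrc hr hball F J t hF hJ h1 h2 ht hoff hc
  obtain ⟨c, hcS, hlim⟩ := Esc.conv hS hJ h1 h2 ht hc
  refine ⟨c, hcS, hlim, ?_⟩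
  have hco : ContinuousAt (ch c) c := (ch c).continuousAt (hsrc c)
  have hl2 : Tendsto (fun T => ch c (t T)) F (𝓝 (ch c c)) := hco.tendsto.comp hlim
  have hev : ∀ᶠ T in F, t T ∈ (ch c).source ∧ ch c (t T) ∈ ball (ch c c) (r c) :=
    (hlim.eventually ((ch c).open_source.mem_nhds (hsrc c))).and
      (hl2.eventually (ball_mem_nhds _ (hr c)))
  obtain ⟨T₂, hT₂, hTV⟩ := h2 _ hev
  have hU : ∀ T ∈ J ∩ Ioi T₂, t T ∈ (ch c).source ∧ ch c (t T) ∈ ball (ch c c) (r c) :=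
    fun T hT => hTV ⟨hT.1, Ioi_subset_Ici_self hT.2⟩
  obtain ⟨T₁, hT₁⟩ := Filter.nonempty_of_mem (h1 T₂ hT₂)
  have hrc : (r c : ℂ) ≠ 0 := by exact_mod_cast (hr c).ne'
  have hne : ∀ T ∈ J ∩ Ioi T₂, (ch c (t T) - ch c c) / r c ≠ 0 := by
    intro T hT h0
    have h3 : ch c (t T) = ch c c := sub_eq_zero.mp ((div_eq_zero_iff.mp h0).resolve_right hrc)
    have h4 := (ch c).injOn (hU T hT).1 (hsrc c) h3
    exact hoff T hT.1 (h4 ▸ hcS)
  have hsc : IsSimplyConnected (J ∩ Ioi T₂) := by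
    have : ContractibleSpace (J ∩ Ioi T₂ : Set ℝ) :=
      Convex.contractibleSpace (hJ.inter ordConnected_Ioi).convex ⟨T₁, hT₁⟩
    exact SimplyConnectedSpace.ofContractible _
  have hg : ContinuousOn (fun T => (ch c (t T) - ch c c) / r c) (J ∩ Ioi T₂) :=
    (((ch c).continuousOn.comp (ht.mono inter_subset_left) fun T hT => (hU T hT).1).sub
      continuousOn_const).div_const _
  obtain ⟨f, hf, hfe⟩ := Complex.exists_continuousOn_eqOn_exp_comp hsc (Esc.opn hJ h1 hT₂) hg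
    (by rintro ⟨T, hT, h0⟩; exact hne T hT h0)
  have hfe' : ∀ T ∈ J ∩ Ioi T₂, Complex.exp (f T) = (ch c (t T) - ch c c) / r c :=
    fun T hT => hfe hT
  have hpi : 0 < 2 * Real.pi := by positivity
  refine ⟨T₁, hT₁.1, fun T => f T / (2 * Real.pi * Complex.I),
    (hf.mono fun T hT => ⟨hT.1, mem_Ioi.mpr ((mem_Ioi.mp hT₁.2).trans_le (mem_Ici.mp hT.2))⟩).div_const _, ?_, ?_⟩
  · have h0 : Tendsto (fun T => ‖(ch c (t T) - ch c c) / r c‖) F (𝓝[≠] 0) := by
      rw [tendsto_nhdsWithin_iff]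
      constructor
      · have := ((hl2.sub_const (ch c c)).div_const (r c : ℂ)).norm
        simpa using this
      · filter_upwards [h1 T₂ hT₂] with T hT
        exact norm_ne_zero_iff.mpr (hne T hT)
    have h3 := (tendsto_neg_atBot_atTop.comp (Real.tendsto_log_nhdsNE_zero.comp h0)).atTop_div_const
      hpi
    refine h3.congr' ?_
    filter_upwards [h1 T₂ hT₂] with T hT
    rw [Esc.im_eq, hfe' T hT]
    rfl
  · intro T hT hT1
    have hm : T ∈ J ∩ Ioi T₂ := ⟨hT, lt_of_lt_of_le hT₁.2 hT1⟩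
    constructor
    · change 0 < (f T / (2 * Real.pi * Complex.I)).im
      rw [Esc.im_eq, hfe' T hm]
      refine div_pos (neg_pos.mpr (Real.log_neg (norm_pos_iff.mpr (hne T hm)) ?_)) hpi
      rw [norm_div, Complex.norm_real, Real.norm_of_nonneg (hr c).le, div_lt_one (hr c)]
      exact mem_ball_iff_norm.mp (hU T hm).2
    · have e1 : 2 * Real.pi * Complex.I * (f T / (2 * Real.pi * Complex.I)) = f T :=
        mul_div_cancel₀ _ Complex.two_pi_I_ne_zero
      have e2 : ch c c + r c * ((ch c (t T) - ch c c) / r c) = ch c (t T) := by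
        rw [mul_div_cancel₀ _ hrc]
        ring
      rw [pt, e1, hfe' T hm, e2, (ch c).left_inv (hU T hm).1]

end Vale.Agent.P301Z.Ry
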