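import Vale.Agent.P301Z.Ry.Defs

/-! P301, block RAY: path lifting. -/

open scoped Topology
open Filter Set

namespace Vale.Agent.P301Z.Ry

namespace Lift

variable {E X : Type} [TopologicalSpace E] [TopologicalSpace X] {P : E → X} {r : ℝ → X} {T₀ : ℝ}
  {e₀ : E}

/-- a lift on a compact interval -/
def IsL (P : E → X) (r : ℝ → X) (T₀ : ℝ) (e₀ : E) (T₁ : ℝ) (γ : ℝ → E) : Prop :=
  ContinuousOn γ (Icc T₀ T₁) ∧ γ T₀ = e₀ ∧ ∀ T ∈ Icc T₀ T₁, P (γ T) = r T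

omit [TopologicalSpace X] in
theorem IsL.mono {T₁ T₂ : ℝ} {γ : ℝ → E} (h : IsL P r T₀ e₀ T₂ γ) (h12 : T₁ ≤ T₂) :
    IsL P r T₀ e₀ T₁ γ :=
  ⟨h.1.mono (Icc_subset_Icc_right h12), h.2.1, fun T hT => h.2.2 T (Icc_subset_Icc_right h12 hT)⟩

theorem uniq [T2Space E] (hl : ∀ e T, T₀ ≤ T → P e = r T →
      ∃ Φ : OpenPartialHomeomorph E X, e ∈ Φ.source ∧ EqOn P Φ Φ.source) {T₁ : ℝ} {γ γ' : ℝ → E}
    (h : IsL P r T₀ e₀ T₁ γ) (h' : IsL P r T₀ e₀ T₁ γ') : Icc T₀ T₁ ⊆ {T | γ T = γ' T} := by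
  refine IsClosed.Icc_subset_of_forall_mem_nhdsWithin ?_ (h.2.1.trans h'.2.1.symm) ?_
  · rw [inter_comm]
    exact (h.1.prodMk h'.1).preimage_isClosed_of_isClosed isClosed_Icc isClosed_diagonal
  · rintro T ⟨hT, hI⟩
    have hI' := Ico_subset_Icc_self hI
    obtain ⟨Φ, h1, h2⟩ := hl _ T hI.1 (h.2.2 T hI')
    have h3 : Icc T₀ T₁ ∈ 𝓝[>] T := Icc_mem_nhdsGT_of_mem hI
    have h4 := ((h.1 T hI').mono_of_mem_nhdsWithin h3).preimage_mem_nhdsWithin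
      (Φ.open_source.mem_nhds h1)
    have h5 := ((h'.1 T hI').mono_of_mem_nhdsWithin h3).preimage_mem_nhdsWithin
      (Φ.open_source.mem_nhds ((show γ T = γ' T from hT) ▸ h1))
    filter_upwards [h3, h4, h5] with t a b c
    exact Φ.injOn b c (by rw [← h2 b, ← h2 c, h.2.2 t a, h'.2.2 t a])

theorem ext (hr : Continuous r) {T₂ T₃ : ℝ} {γ : ℝ → E} (h : IsL P r T₀ e₀ T₂ γ) (h02 : T₀ ≤ T₂)
    (h23 : T₂ ≤ T₃) {Φ : OpenPartialHomeomorph E X} (h1 : γ T₂ ∈ Φ.source)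
    (h2 : EqOn P Φ Φ.source) (h3 : ∀ T ∈ Icc T₂ T₃, r T ∈ Φ.target) :
    ∃ γ', IsL P r T₀ e₀ T₃ γ' := by
  classical
  have h4 : ∀ T ∈ Icc T₂ T₃, (if T ≤ T₂ then γ T else Φ.symm (r T)) = Φ.symm (r T) := by
    intro T hT
    split_ifs with h5
    · rw [le_antisymm h5 hT.1, ← h.2.2 T₂ ⟨h02, le_rfl⟩, h2 h1, Φ.left_inv h1]
    · rfl
  refine ⟨fun T => if T ≤ T₂ then γ T else Φ.symm (r T), ?_, (if_pos h02).trans h.2.1, ?_⟩
  · rw [← Icc_union_Icc_eq_Icc h02 h23]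
    exact (h.1.congr fun T hT => if_pos hT.2).union_of_isClosed
      ((Φ.continuousOn_symm.comp hr.continuousOn h3).congr h4) isClosed_Icc isClosed_Icc
  · intro T hT
    rcases le_total T T₂ with h5 | h5
    · exact (congrArg P (if_pos h5)).trans (h.2.2 T ⟨hT.1, h5⟩)
    · have h6 := h3 T ⟨h5, hT.2⟩
      exact (congrArg P (h4 T ⟨h5, hT.2⟩)).trans
        ((h2 (Φ.map_target h6)).trans (Φ.right_inv h6))

end Lift

open Lift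

theorem lift : LIFT := by
  intro E X _ _ _ _ P r T₀ e₀ hP hr h0 hl hc
  have : Nonempty (ℝ → E) := ⟨fun _ => e₀⟩
  choose! Γ hΓ using fun T (h : ∃ γ, IsL P r T₀ e₀ T γ) => h
  have h1 : ∀ T γ, IsL P r T₀ e₀ T γ → ∀ t ∈ Icc T₀ T, Γ t t = γ t := fun T γ h t ht =>
    uniq hl (hΓ t ⟨γ, h.mono ht.2⟩) (h.mono ht.2) ⟨ht.1, le_rfl⟩
  have h2 : ∀ T γ, IsL P r T₀ e₀ T γ → ∀ t ∈ Ico T₀ T,
      ContinuousWithinAt (fun t => Γ t t) (Ici T₀) t ∧ P (Γ t t) = r t := fun T γ h t ht =>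
    have ht' := Ico_subset_Icc_self ht
    ⟨((h.1 t ht').congr (h1 T γ h) (h1 T γ h t ht')).mono_of_mem_nhdsWithin
      (inter_mem_nhdsWithin _ (Iic_mem_nhds ht.2)), by rw [h1 T γ h t ht', h.2.2 t ht']⟩
  have h3 : IsL P r T₀ e₀ T₀ fun _ => e₀ :=
    ⟨continuousOn_const, rfl, fun T hT => by rw [le_antisymm hT.2 hT.1, h0]⟩
  have h4 : ∀ T e, T₀ ≤ T → P e = r T → ∃ Φ : OpenPartialHomeomorph E X, e ∈ Φ.source ∧
      EqOn P Φ Φ.source ∧ ∃ a b, a < T ∧ T < b ∧ ∀ t ∈ Icc a b, r t ∈ Φ.target := by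
    intro T e hT he
    obtain ⟨Φ, a, b⟩ := hl e T hT he
    have : r ⁻¹' Φ.target ∈ 𝓝 T := hr.continuousAt.preimage_mem_nhds
      (Φ.open_target.mem_nhds (by rw [← he, b a]; exact Φ.map_source a))
    obtain ⟨u, v, ⟨hu, hv⟩, huv⟩ := mem_nhds_iff_exists_Ioo_subset.1 this
    exact ⟨Φ, a, b, (u + T) / 2, (T + v) / 2, by linarith, by linarith, fun t ht =>
      huv ⟨by linarith [ht.1], by linarith [ht.2]⟩⟩
  have h5 : ∀ T, T₀ ≤ T → (∀ t ∈ Ico T₀ T, ∃ γ, IsL P r T₀ e₀ t γ) →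
      ∃ T', T < T' ∧ ∃ γ, IsL P r T₀ e₀ T' γ := by
    intro T hT hA
    rcases hT.eq_or_lt with rfl | hT'
    · obtain ⟨Φ, a, b, u, v, hu, hv, huv⟩ := h4 T₀ e₀ le_rfl h0
      exact ⟨v, hv, ext hr h3 le_rfl hv.le a b fun t ht => huv t ⟨hu.le.trans ht.1, ht.2⟩⟩
    · have h6 : ∀ t ∈ Ico T₀ T,
          ContinuousWithinAt (fun t => Γ t t) (Ici T₀) t ∧ P (Γ t t) = r t := fun t ht => by
        obtain ⟨γ, hγ⟩ := hA ((t + T) / 2) ⟨by linarith [ht.1, ht.2], by linarith [ht.2]⟩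
        exact h2 _ γ hγ t ⟨ht.1, by linarith [ht.2]⟩
      obtain ⟨e, he⟩ := hc T (fun t => Γ t t) hT'
        (fun t ht => (h6 t ht).1.mono Ico_subset_Ici_self) fun t ht => (h6 t ht).2
      have h7 : Ico T₀ T ∈ 𝓝[<] T := Ico_mem_nhdsLT hT'
      have h8 : P e = r T := by
        have h9 : Tendsto (P ∘ fun t => Γ t t) (𝓝[<] T) (𝓝 (r T)) :=
          (hr.continuousAt.tendsto.mono_left nhdsWithin_le_nhds).congr'
            (mem_of_superset h7 fun t ht => (h6 t ht).2.symm)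
        exact eq_of_nhds_neBot ((he.continuousAt_comp hP.continuousAt).clusterPt.mono h9)
      obtain ⟨Φ, a, b, u, v, hu, hv, huv⟩ := h4 T e hT h8
      obtain ⟨t, h9, h10, h11⟩ := ((he.frequently (Φ.open_source.mem_nhds a)).and_eventually
        (inter_mem h7 (Ico_mem_nhdsLT hu))).exists
      exact ⟨v, hv, ext hr (hΓ t (hA t h10)) h10.1 (h10.2.trans hv).le h9 b fun s hs =>
        huv s ⟨h11.1.trans hs.1, hs.2⟩⟩
  have h6 : ∀ T, T₀ ≤ T → ∃ γ, IsL P r T₀ e₀ T γ := by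
    intro T hT
    by_contra hn
    have hb : BddBelow {t | T₀ ≤ t ∧ ¬ ∃ γ, IsL P r T₀ e₀ t γ} := ⟨T₀, fun t ht => ht.1⟩
    have hne : {t | T₀ ≤ t ∧ ¬ ∃ γ, IsL P r T₀ e₀ t γ}.Nonempty := ⟨T, hT, hn⟩
    obtain ⟨T', h7, γ, hγ⟩ := h5 _ (le_csInf hne fun t ht => ht.1) fun t ht =>
      by_contra fun h => notMem_of_lt_csInf ht.2 hb ⟨ht.1, h⟩
    exact h7.not_ge (le_csInf hne fun t ht => le_of_not_ge fun h => ht.2 ⟨γ, hγ.mono h⟩)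
  have h7 : ∀ t, T₀ ≤ t → ContinuousWithinAt (fun t => Γ t t) (Ici T₀) t ∧ P (Γ t t) = r t :=
    fun t ht => (h6 (t + 1) (by linarith)).elim fun γ hγ => h2 _ γ hγ t ⟨ht, by linarith⟩
  exact ⟨fun t => Γ t t, fun t ht => (h7 t ht).1, h1 _ _ h3 T₀ ⟨le_rfl, le_rfl⟩,
    fun t ht => (h7 t ht).2⟩

end Vale.Agent.P301Z.Ry
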