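import Vale.Agent.P301Z.Ry.Sch

/-! P301, block RAY: finite limit values at a puncture. -/

open scoped Topology Matrix Polynomial
open Filter Set Metric

namespace Vale.Agent.P301Z.Ry

namespace Lim

open Sch

/-- the polynomial whose roots contain the fixed points -/
noncomputable def pol (ε : ℝ) (M : Matrix (Fin 3) (Fin 3) ℝ) : ℂ[X] :=
  (Polynomial.C (M 1 0 * -(ε / 2) : ℂ) * Polynomial.X ^ 2 + Polynomial.C (M 1 1 : ℂ) * Polynomial.X +
    Polynomial.C (M 1 2 : ℂ)) - Polynomial.X * (Polynomial.C (M 2 0 * -(ε / 2) : ℂ) *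
      Polynomial.X ^ 2 + Polynomial.C (M 2 1 : ℂ) * Polynomial.X + Polynomial.C (M 2 2 : ℂ))

theorem pol_eval (ε : ℝ) (M : Matrix (Fin 3) (Fin 3) ℝ) (t : ℂ) :
    (pol ε M).eval t = ap M (sg ε t) 1 - t * ap M (sg ε t) 2 := by
  simp [pol, ap, sg]
  ring

theorem cont_ap (ε : ℝ) (M : Matrix (Fin 3) (Fin 3) ℝ) (i : Fin 3) :
    Continuous fun t => ap M (sg ε t) i := by
  simp only [ap, sg, Matrix.cons_val_zero, Matrix.cons_val_one, Matrix.cons_val_two,
    Matrix.head_cons, Matrix.tail_cons]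
  fun_prop

/-- a periodic map has at most one limit value -/
theorem one {P : ℂ → ℂ} (hP : DifferentiableOn ℂ P Hp) (h : ∀ z ∈ Hp, 0 < (P z).im)
    (k : ∀ z ∈ Hp, P (z + 1) = P z) : ∃ c, Tendsto (bb P) (comap Complex.im atTop) (𝓝 c) := by
  classical
  have hH : ∀ᶠ z in comap Complex.im atTop, z ∈ Hp :=
    tendsto_comap.eventually (eventually_gt_atTop (0 : ℝ))
  have hO : IsOpen Hp := isOpen_lt continuous_const Complex.continuous_im
  have h1 : Function.Periodic (Hp.indicator (bb P)) ((1 : ℝ) : ℂ) := fun z => by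
    have h2 : z + 1 ∈ Hp ↔ z ∈ Hp := by simp [Hp]
    rw [Complex.ofReal_one]
    by_cases hz : z ∈ Hp
    · rw [indicator_of_mem hz, indicator_of_mem (h2.2 hz), bb, bb, k z hz]
    · rw [indicator_of_notMem hz, indicator_of_notMem (mt h2.1 hz)]
  refine ⟨_, (Function.Periodic.tendsto_at_I_inf one_pos h1 (hH.mono fun z hz => ?_)
    (Asymptotics.IsBigO.of_bound 1 (hH.mono fun z hz => ?_))).congr'
      (hH.mono fun z hz => indicator_of_mem hz _)⟩
  · refine ((diff_bb hP h).differentiableAt (hO.mem_nhds hz)).congr_of_eventuallyEq ?_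
    filter_upwards [hO.mem_nhds hz] with w hw using indicator_of_mem hw _
  · rw [indicator_of_mem hz]
    simpa using (norm_bb h hz).le

end Lim

open Lim Sch

theorem lim (hL : LIN) : LIM := by
  intro ε M P hε hM hP h k
  obtain ⟨h1, h2, h3, -⟩ := hL ε hε
  have hd : ∀ t : ℂ, 0 < t.im → ap M (sg ε t) 2 ≠ 0 := fun t ht =>
    (h1 _ (h3 M _ hM (h2 t ht.ne'))).1
  by_cases hp : pol ε M = 0
  · obtain ⟨c, hc⟩ := one hP h fun z hz => by
      have h4 := pol_eval ε M (P z)
      rw [hp, Polynomial.eval_zero, eq_comm, sub_eq_zero] at h4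
      rw [k z hz, act, tau, h4, mul_div_cancel_right₀ _ (hd _ (h z hz))]
    refine (countable_singleton (c⁻¹ - Complex.I)).mono ?_
    rintro τ ⟨hτ, F, hF, k1, k2⟩
    have h4 := tendsto_nhds_unique (hc.mono_left (tendsto_iff_comap.1 k1))
      ((k2.add_const _).inv₀ (ne_zero hτ))
    rw [mem_singleton_iff, h4, inv_inv, add_sub_cancel_right]
  · refine (Polynomial.finite_setOfPred_isRoot hp).countable.mono ?_
    rintro τ ⟨hτ, F, hF, k1, k2⟩
    have h4 := (sch P hP h ℂ F id k1).1 τ hτ k2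
    have h5 : Tendsto (fun z => act ε M (P z)) F (𝓝 (act ε M τ)) :=
      (((cont_ap ε M 1).continuousAt.div (cont_ap ε M 2).continuousAt (hd τ hτ)).tendsto).comp k2
    have h6 : act ε M τ = τ := tendsto_nhds_unique h5 (h4.congr' (by
      filter_upwards [k1.eventually_gt_atTop 0] with z hz using k z hz))
    show (pol ε M).eval τ = 0
    rw [pol_eval, sub_eq_zero, ← div_eq_iff (hd τ hτ)]
    exact h6

end Vale.Agent.P301Z.Ry
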