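import Vale.Agent.P301Z.Ry.Defs

/-! P301, block RAY: the normal form at a parabolic puncture. -/

open scoped Topology
open Filter Set Metric Complex Function.Periodic

namespace Vale.Agent.P301Z.Ry

namespace Nf

/-- The parameter at the cusp. -/
noncomputable def q (z : ℂ) : ℂ := exp (2 * Real.pi * I * z)

theorem q_eq (z : ℂ) : qParam 1 z = q z := by simp [qParam, q]

theorem opn : IsOpen Hp := isOpen_lt continuous_const continuous_im

theorem pre : IsPreconnected Hp := (convex_halfSpace_im_gt 0).isPreconnected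

theorem q_mem {z : ℂ} (hz : z ∈ Hp) : q z ∈ ball (0 : ℂ) 1 := by
  rw [mem_ball_zero_iff, ← q_eq]
  exact norm_qParam_lt_one one_pos hz

theorem q_add (z : ℂ) : q (z + 1) = q z := by
  rw [q, mul_add, mul_one, exp_add, exp_two_pi_mul_I, mul_one, q]

theorem q_surj {t : ℂ} (ht : t ∈ ball (0 : ℂ) 1) (h0 : t ≠ 0) : ∃ z ∈ Hp, q z = t := by
  refine ⟨invQParam 1 t, ?_, by rw [← q_eq, qParam_right_inv one_ne_zero h0]⟩
  show 0 < (invQParam 1 t).im
  rw [im_invQParam]
  exact mul_pos_of_neg_of_neg (div_neg_of_neg_of_pos (by norm_num) (by positivity))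
    (Real.log_neg (norm_pos_iff.2 h0) (mem_ball_zero_iff.1 ht))

theorem cusp {g : ℂ → ℂ} (hg : DifferentiableOn ℂ g Hp) (hp : ∀ z ∈ Hp, g (z + 1) = g z)
    (hb : ∀ z ∈ Hp, ‖g z‖ ≤ 1) :
    ∃ W : ℂ → ℂ, DifferentiableOn ℂ W (ball 0 1) ∧ ∀ z ∈ Hp, W (q z) = g z := by
  classical
  have h1 : Function.Periodic (Hp.indicator g) ((1 : ℝ) : ℂ) := fun z => by
    have e : z + ((1 : ℝ) : ℂ) ∈ Hp ↔ z ∈ Hp := by simp [Hp]
    by_cases hz : z ∈ Hp
    · rw [indicator_of_mem hz, indicator_of_mem (e.2 hz), ofReal_one, hp z hz]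
    · rw [indicator_of_notMem hz, indicator_of_notMem (mt e.1 hz)]
  have h2 : ∀ z ∈ Hp, DifferentiableAt ℂ (Hp.indicator g) z := fun z hz =>
    (hg.differentiableAt (opn.mem_nhds hz)).congr_of_eventuallyEq (by
      filter_upwards [opn.mem_nhds hz] with w hw using indicator_of_mem hw g)
  have h3 : ∀ᶠ z in comap im atTop, z ∈ Hp :=
    tendsto_comap.eventually (eventually_gt_atTop (0 : ℝ))
  refine ⟨cuspFunction 1 (Hp.indicator g), fun t ht => ?_, fun z hz => ?_⟩
  · by_cases h0 : t = 0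
    · subst h0
      refine (differentiableAt_cuspFunction_zero one_pos h1 (h3.mono h2) ?_).differentiableWithinAt
      refine Asymptotics.IsBigO.of_bound 1 (h3.mono fun z hz => ?_)
      rw [indicator_of_mem hz]
      simpa using hb z hz
    · obtain ⟨z, hz, rfl⟩ := q_surj ht h0
      rw [← q_eq]
      exact (differentiableAt_cuspFunction one_ne_zero h1 (h2 z hz)).differentiableWithinAt
  · rw [← q_eq, eq_cuspFunction one_ne_zero h1, indicator_of_mem hz]

theorem fac {W : ℂ → ℂ} (hW : DifferentiableOn ℂ W (ball 0 1))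
    (h0 : ∀ t ∈ ball (0 : ℂ) 1, t ≠ 0 → W t ≠ 0) :
    ∃ (k : ℕ) (V : ℂ → ℂ), DifferentiableOn ℂ V (ball 0 1) ∧ (∀ t ∈ ball (0 : ℂ) 1, V t ≠ 0) ∧
      ∀ t, t ≠ 0 → W t = t ^ k * V t := by
  classical
  have hm : ball (0 : ℂ) 1 ∈ 𝓝 (0 : ℂ) := ball_mem_nhds _ one_pos
  obtain ⟨k, g, h1, h2, h3⟩ := (hW.analyticAt hm).exists_eventuallyEq_pow_smul_nonzero_iff.2 (by
    intro h
    have h4 : ∀ᶠ t in 𝓝[≠] (0 : ℂ), False := by
      filter_upwards [nhdsWithin_le_nhds h, nhdsWithin_le_nhds hm, self_mem_nhdsWithin]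
        with t a b c using h0 t b c a
    exact h4.exists.elim fun _ h => h)
  refine ⟨k, fun t => if t = 0 then g 0 else W t / t ^ k, fun t ht => ?_, fun t ht => ?_,
    fun t ht => ?_⟩
  · refine DifferentiableAt.differentiableWithinAt ?_
    by_cases e : t = 0
    · subst e
      refine h1.differentiableAt.congr_of_eventuallyEq ?_
      filter_upwards [h3] with w hw
      split_ifs with e
      · rw [e]
      · rw [hw, sub_zero, smul_eq_mul, mul_div_cancel_left₀ _ (pow_ne_zero k e)]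
    · refine DifferentiableAt.congr_of_eventuallyEq (f := fun w => W w / w ^ k)
        ((hW.differentiableAt (isOpen_ball.mem_nhds ht)).div (differentiableAt_id.pow k)
          (pow_ne_zero k e)) ?_
      filter_upwards [isOpen_ne.mem_nhds e] with w hw using if_neg hw
  · show (if t = 0 then g 0 else W t / t ^ k) ≠ 0
    split_ifs with e
    · exact h2
    · exact div_ne_zero (h0 t ht e) (pow_ne_zero k e)
  · show W t = t ^ k * if t = 0 then g 0 else W t / t ^ k
    rw [if_neg ht, mul_div_cancel₀ _ (pow_ne_zero k ht)]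

theorem lg {F V : ℂ → ℂ} (hF : DifferentiableOn ℂ F Hp) (hV : DifferentiableOn ℂ V (ball 0 1))
    (h0 : ∀ t ∈ ball (0 : ℂ) 1, V t ≠ 0) (he : ∀ z ∈ Hp, exp (F z) = V (q z)) :
    ∃ φ : ℂ → ℂ, DifferentiableOn ℂ φ (ball 0 1) ∧ ∀ z ∈ Hp, F z = φ (q z) := by
  obtain ⟨φ, hφ⟩ := ((hV.deriv isOpen_ball).div hV h0).isExactOn_ball
  have hq : ∀ z, HasDerivAt q (deriv q z) z := fun z =>
    DifferentiableAt.hasDerivAt (by unfold q; fun_prop)
  have h1 : ∀ z ∈ Hp, HasDerivAt (fun w => F w - φ (q w)) 0 z := fun z hz => by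
    have a := (hF.differentiableAt (opn.mem_nhds hz)).hasDerivAt
    have b := ((hV.differentiableAt (isOpen_ball.mem_nhds (q_mem hz))).hasDerivAt.comp z
      (hq z)).congr_of_eventuallyEq (f₁ := fun w => exp (F w)) (by
        filter_upwards [opn.mem_nhds hz] with w hw using he w hw)
    have c := a.cexp.unique b
    have d := a.fun_sub ((hφ _ (q_mem hz)).comp z (hq z))
    refine d.congr_deriv ?_
    rw [he z hz] at c
    have := h0 _ (q_mem hz)
    simp only [Pi.div_apply]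
    field_simp
    linear_combination c
  obtain ⟨c, hc⟩ := opn.exists_is_const_of_deriv_eq_zero pre
    (fun z hz => (h1 z hz).differentiableAt.differentiableWithinAt) fun z hz => (h1 z hz).deriv
  exact ⟨fun t => φ t + c,
    fun t ht => ((hφ t ht).differentiableAt.add_const c).differentiableWithinAt,
    fun z hz => by rw [← hc z hz]; ring⟩

theorem core {P : ℂ → ℂ} {h a : ℝ} (m : ℤ) (ha : 0 < a) (hm : h = m * a)
    (hP : DifferentiableOn ℂ P Hp) (h1 : ∀ z ∈ Hp, 0 < (P z).im)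
    (h2 : ∀ z ∈ Hp, P (z + 1) = P z + h) :
    0 ≤ h ∧ ∃ f : ℂ → ℂ, DifferentiableOn ℂ f (ball 0 1) ∧ ∀ z ∈ Hp, P z = h * z + f (q z) := by
  have ha' : (a : ℂ) ≠ 0 := ofReal_ne_zero.2 ha.ne'
  obtain ⟨W, hW, eW⟩ := cusp (g := fun z => qParam a (P z))
    (differentiable_qParam.comp_differentiableOn hP)
    (fun z hz => by
      simp only [qParam, h2 z hz, hm]
      rw [exp_eq_exp_iff_exists_int]
      exact ⟨m, by push_cast; field_simp⟩)
    fun z hz => (norm_qParam_lt_one ha (h1 z hz)).le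
  obtain ⟨k, V, hV, h0, eV⟩ := fac hW fun t ht e => by
    obtain ⟨z, hz, rfl⟩ := q_surj ht e
    rw [eW z hz]
    exact qParam_ne_zero _
  obtain ⟨φ, hφ, e⟩ := lg (F := fun z => 2 * Real.pi * I * P z / a - k * (2 * Real.pi * I * z))
    (((hP.const_mul _).div_const _).sub (by fun_prop)) hV h0 fun z hz => by
      have := eW z hz
      rw [eV (q z) (exp_ne_zero _)] at this
      rw [exp_sub, exp_nat_mul, div_eq_iff (pow_ne_zero _ (exp_ne_zero _))]
      exact this.symm.trans (mul_comm _ _)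
  have e1 : ∀ z ∈ Hp, P z = a * k * z + a / (2 * Real.pi * I) * φ (q z) := fun z hz => by
    have := two_pi_I_ne_zero
    rw [← e z hz]
    field_simp
    ring
  have hI : I ∈ Hp := by simp [Hp]
  have e2 : (h : ℂ) = a * k := by
    have := h2 I hI
    rw [e1 _ (by simp [Hp]), q_add, e1 _ hI] at this
    linear_combination -this
  refine ⟨?_, fun t => a / (2 * Real.pi * I) * φ t, hφ.const_mul _, fun z hz => by
    rw [e2, e1 z hz]⟩
  have : h = a * k := by exact_mod_cast e2
  rw [this]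
  positivity

end Nf

open Nf in
theorem nf : NF := by
  intro P h hP h1 h2 ⟨F, hF, h3, h4⟩
  obtain ⟨h5, f, hf, e⟩ : 0 ≤ h ∧ ∃ f : ℂ → ℂ, DifferentiableOn ℂ f (ball 0 1) ∧
      ∀ z ∈ Hp, P z = h * z + f (q z) := by
    rcases lt_trichotomy h 0 with h0 | h0 | h0
    · exact core (-1) (neg_pos.2 h0) (by simp) hP h1 h2
    · exact core 0 one_pos (by simp [h0]) hP h1 h2
    · exact core 1 h0 (by simp) hP h1 h2
  have hr : Real.exp (-2 * Real.pi) < 1 := Real.exp_lt_one_iff.2 (by linarith [Real.pi_pos])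
  obtain ⟨B, hB⟩ := (isCompact_closedBall (0 : ℂ) _).exists_bound_of_continuousOn
    (hf.continuousOn.mono (closedBall_subset_ball hr))
  have h6 : ∀ z : ℂ, 1 ≤ z.im → |(P z).im - h * z.im| ≤ B := fun z hz => by
    rw [e z (lt_of_lt_of_le one_pos hz), add_im, im_ofReal_mul, add_sub_cancel_left]
    refine (abs_im_le_norm _).trans (hB _ ?_)
    rw [mem_closedBall_zero_iff, ← q_eq, norm_qParam, Real.exp_le_exp, div_one]
    nlinarith [Real.pi_pos]
  refine ⟨h5.lt_of_ne fun h0 => ?_, f, B, hf, e, h6⟩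
  obtain ⟨z, a, b⟩ := ((h3.eventually_ge_atTop 1).and (h4.eventually_gt_atTop B)).exists
  have := (abs_le.1 (h6 z a)).2
  rw [← h0] at this
  linarith

end Vale.Agent.P301Z.Ry
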