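import Vale.Agent.P301Z.Ry.Lin

/-! P301, block RAY: the stabiliser of the cusp. -/

open scoped Matrix Topology
open Filter

namespace Vale.Agent.P301Z.Ry

namespace Para

variable {ε : ℝ} {M : Matrix (Fin 3) (Fin 3) ℝ}

theorem inv0 {Y : Type} {F : Filter Y} {τ : Y → ℂ} (h : Tendsto (fun y => ‖τ y‖) F atTop) :
    Tendsto (fun y => (τ y)⁻¹) F (𝓝 0) := by
  rw [tendsto_zero_iff_norm_tendsto_zero]
  simpa only [norm_inv, Function.comp_def] using tendsto_inv_atTop_zero.comp h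

theorem col (hε : 0 < ε) (hM : Mᵀ * Qm ε * M = Qm ε) {Y : Type} {F : Filter Y} [F.NeBot]
    {τ : Y → ℂ} (h0 : ∀ᶠ y in F, 0 < (τ y).im ∧ 0 < (act ε M (τ y)).im)
    (h1 : Tendsto (fun y => ‖τ y‖) F atTop) (h2 : Tendsto (fun y => ‖act ε M (τ y)‖) F atTop) :
    M 1 0 = 0 ∧ M 2 0 = 0 := by
  have hA : ∀ i, Tendsto (fun y => (M i 0 : ℂ) * -(ε / 2) + M i 1 * (τ y)⁻¹ + M i 2 * (τ y)⁻¹ ^ 2)
      F (𝓝 ((M i 0 : ℂ) * -(ε / 2))) := fun i => by
    simpa using (tendsto_const_nhds (x := (M i 0 : ℂ) * -(ε / 2)).add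
      ((inv0 h1).const_mul (M i 1 : ℂ))).add (((inv0 h1).pow 2).const_mul (M i 2 : ℂ))
  have he : (ε : ℂ) ≠ 0 := Complex.ofReal_ne_zero.2 hε.ne'
  have key : ∀ᶠ y in F, τ y ≠ 0 ∧ act ε M (τ y) ≠ 0 ∧ ∃ c : ℂ,
      (M 0 0 : ℂ) * -(ε * τ y ^ 2 / 2) + M 0 1 * τ y + M 0 2 * 1 =
        c * -(ε * act ε M (τ y) ^ 2 / 2) ∧
      (M 1 0 : ℂ) * -(ε * τ y ^ 2 / 2) + M 1 1 * τ y + M 1 2 * 1 = c * act ε M (τ y) ∧
      (M 2 0 : ℂ) * -(ε * τ y ^ 2 / 2) + M 2 1 * τ y + M 2 2 * 1 = c * 1 := by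
    filter_upwards [h0] with y hy
    have k := Lin.eq_sg hε (Lin.dom_ap hM (Lin.dom_sg hε hy.1.ne'))
    exact ⟨fun h => by simp [h] at hy, fun h => by simp [h] at hy, _, congrFun k 0, congrFun k 1,
      congrFun k 2⟩
  constructor
  · have k := ((hA 0).mul (inv0 h2)).const_mul (-2 / (ε : ℂ))
    rw [mul_zero, mul_zero] at k
    have k' := tendsto_nhds_unique (hA 1) (k.congr' (by
      filter_upwards [key] with y ⟨a, b, c, k0, k1, _⟩
      field_simp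
      linear_combination (-4) * k0 - 2 * ε * act ε M (τ y) * k1))
    simpa [he] using k'
  · have k := (hA 1).mul (inv0 h2)
    rw [mul_zero] at k
    have k' := tendsto_nhds_unique (hA 2) (k.congr' (by
      filter_upwards [key] with y ⟨a, b, c, _, k1, k2⟩
      field_simp
      linear_combination 2 * k1 - 2 * act ε M (τ y) * k2))
    simpa [he] using k'

theorem one_le {x : ℝ} {D : ℕ} (hD : 0 < D) (hx : x ≠ 0) (h : ∀ n : ℕ, ∃ k : ℤ, D * x ^ n = k) :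
    1 ≤ |x| := by
  by_contra hc
  have hD' : (0 : ℝ) < D := Nat.cast_pos.2 hD
  obtain ⟨n, hn⟩ := exists_pow_lt_of_lt_one (inv_pos.2 hD') (not_le.1 hc)
  obtain ⟨k, hk⟩ := h n
  have k0 : k ≠ 0 := by
    rintro rfl
    exact mul_ne_zero hD'.ne' (pow_ne_zero n hx) (by simpa using hk)
  have k1 : (1 : ℝ) ≤ |(k : ℝ)| := by exact_mod_cast Int.one_le_abs k0
  rw [← hk, abs_mul, abs_pow, abs_of_pos hD'] at k1
  have := mul_lt_mul_of_pos_left hn hD'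
  rw [mul_inv_cancel₀ hD'.ne'] at this
  linarith

theorem pow00 (h1 : M 1 0 = 0) (h2 : M 2 0 = 0) (n : ℕ) : (M ^ n) 0 0 = M 0 0 ^ n := by
  induction n with
  | zero => simp
  | succ n ih => simp [pow_succ, Matrix.mul_apply, Fin.sum_univ_three, h1, h2, ih]

theorem pow22 (h1 : M 2 0 = 0) (h2 : M 2 1 = 0) (n : ℕ) : (M ^ n) 2 2 = M 2 2 ^ n := by
  induction n with
  | zero => simp
  | succ n ih => simp [pow_succ', Matrix.mul_apply, Fin.sum_univ_three, h1, h2, ih]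

end Para

theorem para : PARA := by
  intro ε G _ ρ hρ g Y F τ hF h0 h1 h2
  obtain ⟨a10, a20⟩ := Para.col hρ.pos (hρ.iso g) h0 h1 h2
  obtain ⟨D, hD, hd⟩ := hρ.den
  have p0 := fun n : ℕ => hd (g ^ n) 0 0
  have p2 := fun n : ℕ => hd (g ^ n) 2 2
  have hM := hρ.iso g
  have hε := hρ.pos
  simp only [map_pow] at p0 p2
  generalize ρ g = M at *
  have e02 : _ = (1 : ℝ) := Lin.ent hM 0 2
  have e01 : _ = (0 : ℝ) := Lin.ent hM 0 1
  have e11 : _ = ε := Lin.ent hM 1 1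
  have e12 : _ = (0 : ℝ) := Lin.ent hM 1 2
  have e22 : _ = (0 : ℝ) := Lin.ent hM 2 2
  simp only [a10, a20, zero_mul, mul_zero, add_zero] at e02 e01
  have n0 : M 0 0 ≠ 0 := left_ne_zero_of_mul_eq_one e02
  have n2 : M 2 2 ≠ 0 := right_ne_zero_of_mul_eq_one e02
  have a21 : M 2 1 = 0 := (mul_eq_zero.1 e01).resolve_left n0
  simp only [a21, zero_mul, mul_zero, add_zero, zero_add] at e11 e12
  simp only [Para.pow00 a10 a20] at p0
  simp only [Para.pow22 a20 a21] at p2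
  have b0 := Para.one_le hD n0 p0
  have b2 := Para.one_le hD n2 p2
  have b1 : |M 0 0| * |M 2 2| = 1 := by rw [← abs_mul, e02, abs_one]
  have b3 : |M 0 0| = 1 := by nlinarith
  have sq : M 0 0 * M 0 0 = 1 := by rw [← abs_mul_abs_self, b3, mul_one]
  have a22 : M 2 2 = M 0 0 := mul_left_cancel₀ n0 (e02.trans sq.symm)
  have s1 : M 1 1 * M 1 1 = 1 := mul_left_cancel₀ hε.ne' (e11.trans (mul_one ε).symm)
  have sqC : (M 0 0 : ℂ) * M 0 0 = 1 := by exact_mod_cast sq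
  have ac : ∀ w : ℂ, act ε M w = (M 0 0 * M 1 1 : ℝ) * w + (M 0 0 * M 1 2 : ℝ) := fun w => by
    show ((M 1 0 : ℂ) * -(ε * w ^ 2 / 2) + M 1 1 * w + M 1 2 * 1) /
      ((M 2 0 : ℂ) * -(ε * w ^ 2 / 2) + M 2 1 * w + M 2 2 * 1) = _
    rw [a10, a20, a21, a22, div_eq_iff (by simpa using n0)]
    push_cast
    linear_combination (-(M 1 1 : ℂ) * w - M 1 2) * sqC
  obtain ⟨y, y1, y2⟩ := h0.exists
  rw [ac, Complex.add_im, Complex.im_ofReal_mul, Complex.ofReal_im, add_zero] at y2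
  have y3 : 0 < M 0 0 * M 1 1 := (mul_pos_iff_of_pos_right y1).1 y2
  have y4 : M 0 0 * M 1 1 = 1 := by nlinarith
  have a11 : M 1 1 = M 0 0 := mul_left_cancel₀ n0 (y4.trans sq.symm)
  refine ⟨M 0 0, M 0 0 * M 1 2, mul_self_eq_one_iff.1 sq, ?_, fun w => by
    rw [ac, y4, Complex.ofReal_one, one_mul]⟩
  rw [a11, a22] at e12
  rw [a22] at e22
  ext i j
  fin_cases i <;> fin_cases j
  · show M 0 0 = M 0 0 * 1
    rw [mul_one]
  · show M 0 1 = M 0 0 * -(ε * (M 0 0 * M 1 2))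
    linear_combination M 0 0 * e12 - M 0 1 * sq
  · show M 0 2 = M 0 0 * -(ε * (M 0 0 * M 1 2) ^ 2 / 2)
    linear_combination M 0 0 / 2 * e22 - M 0 2 * sq + M 0 0 * ε * M 1 2 ^ 2 / 2 * sq
  · show M 1 0 = M 0 0 * 0
    rw [a10, mul_zero]
  · show M 1 1 = M 0 0 * 1
    rw [a11, mul_one]
  · show M 1 2 = M 0 0 * (M 0 0 * M 1 2)
    linear_combination -M 1 2 * sq
  · show M 2 0 = M 0 0 * 0
    rw [a20, mul_zero]
  · show M 2 1 = M 0 0 * 0
    rw [a21, mul_zero]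
  · show M 2 2 = M 0 0 * 1
    rw [a22, mul_one]

end Vale.Agent.P301Z.Ry
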