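import Vale.Agent.P301Z.Ry.Sec
import Vale.Agent.P301Z.Ry.Crit
import Vale.Agent.P301Z.Ry.Disc
import Vale.Agent.P301Z.Ry.Esc
import Vale.Agent.P301Z.Ry.Lift
import Vale.Agent.P301Z.Ry.Lim
import Vale.Agent.P301Z.Ry.Nf
import Vale.Agent.P301Z.Ry.Para

/-! P301, block RAY: the results without hypotheses. -/

namespace Vale.Agent.P301Z.Ry

theorem ray2 : RAY2 :=
  ray2_of lin (disc lin) para sch (lim lin) nf lift esc (crit lin (disc lin))

theorem ray : RAY := ray_of_ray2 ray2

theorem opn' : OPN := opn lin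

theorem crit' : CRIT := crit lin (disc lin)

end Vale.Agent.P301Z.Ry
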