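import Vale.Agent.P301Z.Defs
import Vale.Agent.P301Z.Li.Q
import Vale.Agent.P301Z.Ry.All

/-! P301, block RAY: the monodromy group of a frame. -/

open scoped Topology Matrix
open Filter Set

noncomputable section

namespace Vale.Agent.P301Z.Ry

open Vale.Agent.P301Z.Lat Vale.Agent.P301Z.Li

variable {n r : ℕ} {B : BB n r}

/-- an integral matrix applied to a complex vector -/
def ac (g : Matrix (Fin r) (Fin r) ℤ) (y : Fin r → ℂ) : Fin r → ℂ :=
  g.map (Int.cast : ℤ → ℂ) *ᵥ y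

/-- the frame in the order `l`, `v`, `m` -/
def fr (F : Fr B) : Fin 3 → Fin r → ℤ := ![F.l, F.v, F.m]

/-- the vector with the given coordinates in the frame -/
def un (F : Fr B) (c : Fin 3 → ℂ) : Fin r → ℂ :=
  c 0 • rc (zr F.l) + c 1 • rc (zr F.v) + c 2 • rc (zr F.m)

/-- the coordinates in the frame -/
def co (F : Fr B) (y : Fin r → ℂ) : Fin 3 → ℂ :=
  ![qC B.q y (rc (zr F.m)) / F.D, qC B.q y (rc (zr F.v)) / F.e, qC B.q y (rc (zr F.l)) / F.D]

/-- orthogonal to the frame -/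
def Pp (F : Fr B) (k : Fin r → ℂ) : Prop :=
  qC B.q k (rc (zr F.l)) = 0 ∧ qC B.q k (rc (zr F.m)) = 0 ∧ qC B.q k (rc (zr F.v)) = 0

/-- in the span of the frame -/
def InT (F : Fr B) (y : Fin r → ℂ) : Prop := un F (co F y) = y

/-- the constant `ε` -/
def eps (F : Fr B) : ℝ := F.e / F.D

namespace Grp

theorem ac_mul (g h : Matrix (Fin r) (Fin r) ℤ) (y : Fin r → ℂ) : ac (g * h) y = ac g (ac h y) := by
  rw [ac, ac, ac, Matrix.mulVec_mulVec]
  exact congrArg (· *ᵥ y) (Matrix.map_mul (f := Int.castRingHom ℂ))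

theorem ac_one (y : Fin r → ℂ) : ac 1 y = y := by
  rw [ac, Matrix.map_one _ Int.cast_zero Int.cast_one, Matrix.one_mulVec]

theorem ac_add (g : Matrix (Fin r) (Fin r) ℤ) (y y' : Fin r → ℂ) :
    ac g (y + y') = ac g y + ac g y' := Matrix.mulVec_add ..

theorem ac_sub (g : Matrix (Fin r) (Fin r) ℤ) (y y' : Fin r → ℂ) :
    ac g (y - y') = ac g y - ac g y' := Matrix.mulVec_sub ..

theorem ac_smul (g : Matrix (Fin r) (Fin r) ℤ) (c : ℂ) (y : Fin r → ℂ) :
    ac g (c • y) = c • ac g y := Matrix.mulVec_smul ..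

theorem ac_zr (g : Matrix (Fin r) (Fin r) ℤ) (x : Fin r → ℤ) :
    ac g (rc (zr x)) = rc (zr (g *ᵥ x)) := by
  funext i
  simp [ac, rc, zr, Matrix.mulVec, dotProduct]

theorem ac_rc (g : Matrix (Fin r) (Fin r) ℤ) (x : Fin r → ℝ) :
    ac g (rc x) = rc (g.map (Int.cast : ℤ → ℝ) *ᵥ x) := by
  funext i
  simp [ac, rc, Matrix.mulVec, dotProduct]

theorem ac_star (g : Matrix (Fin r) (Fin r) ℤ) (y : Fin r → ℂ) :
    ac g (star y) = star (ac g y) := by
  funext i
  simp [ac, Matrix.mulVec, dotProduct]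

theorem qC_dot (q : Matrix (Fin r) (Fin r) ℤ) (x y : Fin r → ℂ) : qC q x y = x ⬝ᵥ ac q y := by
  simp only [qC, ac, dotProduct, Matrix.mulVec, Matrix.map_apply, Finset.mul_sum]
  exact Finset.sum_congr rfl fun i _ => Finset.sum_congr rfl fun j _ => by ring

theorem qC_ac {q g : Matrix (Fin r) (Fin r) ℤ} (h : gᵀ * q * g = q) (x y : Fin r → ℂ) :
    qC q (ac g x) (ac g y) = qC q x y := by
  rw [qC_dot, qC_dot]
  conv_rhs => rw [← h, Matrix.mul_assoc, ac_mul, ac_mul]
  generalize ac q (ac g y) = z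
  rw [ac, ac, Matrix.transpose_map, Matrix.dotProduct_mulVec x, Matrix.vecMul_transpose]

/-- a matrix preserving the complex form is an isometry -/
theorem iso_of_qC {q g : Matrix (Fin r) (Fin r) ℤ}
    (h : ∀ x y, qC q (ac g x) (ac g y) = qC q x y) : gᵀ * q * g = q := by
  ext i j
  have h1 := h (Pi.single i 1) (Pi.single j 1)
  have h2 : ∀ M : Matrix (Fin r) (Fin r) ℤ, qC M (Pi.single i 1) (Pi.single j 1) = M i j := by
    intro M
    rw [qC_dot, ac]
    simp
  have h3 : qC (gᵀ * q * g) (Pi.single i 1) (Pi.single j 1) =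
      qC q (ac g (Pi.single i 1)) (ac g (Pi.single j 1)) := by
    rw [qC_dot, qC_dot, Matrix.mul_assoc, ac_mul, ac_mul]
    generalize ac q (ac g (Pi.single j 1)) = z
    rw [ac, ac, Matrix.transpose_map, Matrix.dotProduct_mulVec (Pi.single i 1),
      Matrix.vecMul_transpose]
  rw [← h3, h2, h2] at h1
  exact_mod_cast h1

theorem nondegR (B : BB n r) {x : Fin r → ℝ} (h : ∀ y, QR B.q x y = 0) : x = 0 := by
  obtain ⟨e, -, he⟩ := B.sig
  by_contra hx
  have h1 := he x (fun i => by rw [qR_eq]; exact h _) hx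
  rw [qR_eq, h] at h1
  exact lt_irrefl _ h1

theorem nondeg (B : BB n r) {x : Fin r → ℂ} (h : ∀ y, qC B.q x y = 0) : x = 0 := by
  have h1 := fun y => perp_of B.q (p := x) (x := y) (by rw [← qC_eq]; exact h _)
  rw [re_add_im x, nondegR B fun y => (h1 y).1, nondegR B fun y => (h1 y).2]
  funext i
  simp [rc]

variable (F : Fr B)

theorem D0 : (F.D : ℂ) ≠ 0 := Complex.ofReal_ne_zero.2 F.Dpos.ne'

theorem e0 : (F.e : ℂ) ≠ 0 := Complex.ofReal_ne_zero.2 F.epos.ne'

theorem eps_pos : 0 < eps F := div_pos F.epos F.Dpos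

theorem qC_un (c : Fin 3 → ℂ) (y : Fin r → ℂ) : qC B.q (un F c) y =
    c 0 * qC B.q y (rc (zr F.l)) + c 1 * qC B.q y (rc (zr F.v)) + c 2 * qC B.q y (rc (zr F.m)) := by
  rw [qC_symm B.symm]
  simp only [un, qC_eq, map_add, map_smul, smul_eq_mul]

theorem un_l (c : Fin 3 → ℂ) : qC B.q (un F c) (rc (zr F.l)) = c 2 * F.D := by
  rw [qC_un, qC_rc, qC_rc, qC_rc, F.ll, F.lv, F.lm]
  simp

theorem un_m (c : Fin 3 → ℂ) : qC B.q (un F c) (rc (zr F.m)) = c 0 * F.D := by
  rw [qC_un, qC_rc, qC_rc, qC_rc, qR_symm B.symm, F.lm, F.mv, F.mm]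
  simp

theorem un_v (c : Fin 3 → ℂ) : qC B.q (un F c) (rc (zr F.v)) = c 1 * F.e := by
  rw [qC_un, qC_rc, qC_rc, qC_rc, qR_symm B.symm, F.lv, F.vv, qR_symm B.symm, F.mv]
  simp

theorem co_un (c : Fin 3 → ℂ) : co F (un F c) = c := by
  funext i
  fin_cases i <;> simp [co, un_l, un_m, un_v, D0 F, e0 F]

theorem inT_un (c : Fin 3 → ℂ) : InT F (un F c) := by rw [InT, co_un]

theorem un_sg (τ : ℂ) : un F (sg (eps F) τ) = F.p τ := by
  funext i
  have := D0 F
  simp [un, sg, Fr.p, eps]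
  field_simp
  ring

theorem un_smul (k : ℂ) (c : Fin 3 → ℂ) : un F (k • c) = k • un F c := by
  simp only [un, Pi.smul_apply, smul_eq_mul, smul_add, mul_smul]

theorem co_smul (k : ℂ) (y : Fin r → ℂ) : co F (k • y) = k • co F y := by
  funext i
  fin_cases i <;> simp [co, qC_eq, mul_div_assoc]

theorem co_add (y y' : Fin r → ℂ) : co F (y + y') = co F y + co F y' := by
  funext i
  fin_cases i <;> simp [co, qC_eq, add_div]

theorem co_star (y : Fin r → ℂ) : co F (star y) = star (co F y) := by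
  have h : ∀ x : Fin r → ℝ, qC B.q (star y) (rc x) = star (qC B.q y (rc x)) := by
    intro x
    simp [qC, rc]
  funext i
  fin_cases i <;> simp [co, h]

theorem un_star (c : Fin 3 → ℂ) : un F (star c) = star (un F c) := by
  funext i
  simp [un, rc]

theorem co_p (τ : ℂ) : co F (F.p τ) = sg (eps F) τ := by rw [← un_sg, co_un]

theorem inT_p (τ : ℂ) : InT F (F.p τ) := by rw [← un_sg]; exact inT_un F _

theorem qC_un_un (c c' : Fin 3 → ℂ) : qC B.q (un F c) (un F c') = F.D * qf (eps F) c c' := by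
  have := D0 F
  rw [qC_un, un_l, un_m, un_v, qf, eps]
  push_cast
  field_simp
  ring

theorem pp_sub (y : Fin r → ℂ) : Pp F (y - un F (co F y)) := by
  have := D0 F
  have := e0 F
  refine ⟨?_, ?_, ?_⟩
  · rw [qC_eq, map_sub, LinearMap.sub_apply, ← qC_eq, ← qC_eq, un_l]; simp [co, *]
  · rw [qC_eq, map_sub, LinearMap.sub_apply, ← qC_eq, ← qC_eq, un_m]; simp [co, *]
  · rw [qC_eq, map_sub, LinearMap.sub_apply, ← qC_eq, ← qC_eq, un_v]; simp [co, *]

variable {F}

theorem qC_un_pp {k : Fin r → ℂ} (hk : Pp F k) (c : Fin 3 → ℂ) : qC B.q (un F c) k = 0 := by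
  rw [qC_un, hk.1, hk.2.1, hk.2.2]
  simp

/-- the span of the frame is the orthogonal space of its orthogonal space -/
theorem inT_iff {y : Fin r → ℂ} : InT F y ↔ ∀ k, Pp F k → qC B.q y k = 0 := by
  refine ⟨fun h k hk => by rw [← h]; exact qC_un_pp hk _, fun h => ?_⟩
  refine (sub_eq_zero.1 (nondeg B fun z => ?_)).symm
  have h1 : z = un F (co F z) + (z - un F (co F z)) := by abel
  have h2 := pp_sub F z
  generalize z - un F (co F z) = k at h1 h2
  rw [h1, qC_eq, map_add, ← qC_eq, ← qC_eq, qC_symm B.symm, qC_un_pp (pp_sub F y), qC_eq, map_sub,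
    LinearMap.sub_apply, ← qC_eq, ← qC_eq, h _ h2, qC_un_pp h2]
  simp

theorem InT.smul {y : Fin r → ℂ} (h : InT F y) (k : ℂ) : InT F (k • y) := by
  rw [InT, co_smul, un_smul, h]

theorem inT_span (a b c : ℂ) : InT F (a • rc (zr F.l) + b • rc (zr F.v) + c • rc (zr F.m)) :=
  inT_un F ![a, b, c]

theorem dom_iff {y : Fin r → ℂ} (h : InT F y) :
    Dom (eps F) (co F y) ↔ qC B.q y y = 0 ∧ 0 < (qC B.q y (star y)).re := by
  have h1 := qC_un_un F (co F y) (co F y)
  have h2 := qC_un_un F (co F y) (star (co F y))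
  rw [un_star, h] at h2
  rw [h] at h1
  rw [h1, h2, Dom, mul_eq_zero, Complex.re_ofReal_mul, mul_pos_iff_of_pos_left F.Dpos,
    or_iff_right (D0 F)]

end Grp

open Grp

/-- the isometries of the lattice which fix the orthogonal space of the frame -/
def Gp (F : Fr B) : Subgroup (Matrix (Fin r) (Fin r) ℤ)ˣ where
  carrier := {g | (∀ x y, qC B.q (ac g x) (ac g y) = qC B.q x y) ∧ ∀ k, Pp F k → ac g k = k}
  one_mem' := ⟨fun x y => by rw [Units.val_one, ac_one, ac_one],
    fun k _ => by rw [Units.val_one, ac_one]⟩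
  mul_mem' {g h} hg hh := ⟨fun x y => by rw [Units.val_mul, ac_mul, ac_mul, hg.1, hh.1],
    fun k hk => by rw [Units.val_mul, ac_mul, hh.2 k hk, hg.2 k hk]⟩
  inv_mem' {g} hg := ⟨fun x y => by
      rw [← hg.1, ← ac_mul, ← ac_mul, Units.mul_inv, ac_one, ac_one],
    fun k hk => by
      conv_lhs => rw [← hg.2 k hk, ← ac_mul, Units.inv_mul, ac_one]⟩

/-- the action of the group on complex vectors -/
def ga {F : Fr B} (g : Gp F) (y : Fin r → ℂ) : Fin r → ℂ := ac (g.1 : Matrix (Fin r) (Fin r) ℤ) y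

namespace Grp

variable {F : Fr B}

theorem ga_mul (g h : Gp F) (y : Fin r → ℂ) : ga (g * h) y = ga g (ga h y) := ac_mul _ _ y

theorem ga_one (y : Fin r → ℂ) : ga (1 : Gp F) y = y := ac_one y

theorem ga_q (g : Gp F) (x y : Fin r → ℂ) : qC B.q (ga g x) (ga g y) = qC B.q x y := g.2.1 x y

theorem ga_pp (g : Gp F) {k : Fin r → ℂ} (hk : Pp F k) : ga g k = k := g.2.2 k hk

theorem ga_smul (g : Gp F) (c : ℂ) (y : Fin r → ℂ) : ga g (c • y) = c • ga g y := ac_smul _ c y

theorem InT.ga {y : Fin r → ℂ} (h : InT F y) (g : Gp F) : InT F (ga g y) :=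
  inT_iff.2 fun k hk => by rw [← ga_pp g hk, ga_q, inT_iff.1 h k hk]

/-- the matrix in the frame -/
def mtx (F : Fr B) (g : Matrix (Fin r) (Fin r) ℤ) : Matrix (Fin 3) (Fin 3) ℝ := fun i j =>
  ![qR B.q (zr (g *ᵥ fr F j)) (zr F.m) / F.D, qR B.q (zr (g *ᵥ fr F j)) (zr F.v) / F.e,
    qR B.q (zr (g *ᵥ fr F j)) (zr F.l) / F.D] i

theorem mt_eq (g : Matrix (Fin r) (Fin r) ℤ) (i j : Fin 3) :
    (mtx F g i j : ℂ) = co F (ac g (rc (zr (fr F j)))) i := by
  rw [ac_zr]
  fin_cases i <;> simp [mtx, co, qC_rc]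

theorem ap_mt (g : Matrix (Fin r) (Fin r) ℤ) (c : Fin 3 → ℂ) :
    ap (mtx F g) c = co F (ac g (un F c)) := by
  funext i
  simp only [ap, mt_eq, un, ac_add, ac_smul, co_add, co_smul, Pi.add_apply, Pi.smul_apply,
    smul_eq_mul, fr]
  simp only [Matrix.cons_val_zero, Matrix.cons_val_one, Matrix.cons_val]
  ring

theorem ext_ap {M N : Matrix (Fin 3) (Fin 3) ℝ} (h : ∀ c, ap M c = ap N c) : M = N := by
  ext i j
  have h1 := congrFun (h (Pi.single j 1)) i
  fin_cases j <;> simpa [ap] using h1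

theorem ap_one (c : Fin 3 → ℂ) : ap 1 c = c := by
  funext i
  fin_cases i <;> simp [ap, Matrix.one_apply]

end Grp

/-- the representation on the span of the frame -/
def rho (F : Fr B) : Gp F →* Matrix (Fin 3) (Fin 3) ℝ where
  toFun g := mtx F (g.1 : Matrix (Fin r) (Fin r) ℤ)
  map_one' := ext_ap fun c => by
    rw [ap_mt, ap_one]
    exact (congrArg (co F) (ga_one (F := F) _)).trans (co_un F c)
  map_mul' g h := ext_ap fun c => by
    rw [Cov.ap_mul, ap_mt, ap_mt, ap_mt]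
    exact congrArg (co F) ((ga_mul g h _).trans
      (congrArg (ga g) (InT.ga (inT_un F c) h).symm))

namespace Grp

variable {F : Fr B}

theorem ap_rho (g : Gp F) (c : Fin 3 → ℂ) : ap (rho F g) c = co F (ga g (un F c)) := ap_mt _ c

theorem co_ga (g : Gp F) {y : Fin r → ℂ} (h : InT F y) : co F (ga g y) = ap (rho F g) (co F y) := by
  rw [ap_rho, h]

theorem un_ap (g : Gp F) (c : Fin 3 → ℂ) : un F (ap (rho F g) c) = ga g (un F c) := by
  rw [ap_rho]
  exact InT.ga (inT_un F c) g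

/-- the marked period in terms of the lattice -/
theorem ga_eq_iff (g : Gp F) {y : Fin r → ℂ} (h : InT F y) (k τ : ℂ) :
    ap (rho F g) (co F y) = k • sg (eps F) τ ↔ ga g y = k • F.p τ := by
  constructor
  · intro h1
    rw [← h, ← un_ap, h1, un_smul, un_sg]
  · intro h1
    rw [← co_ga g h, h1, co_smul, co_p]

theorem qR_int (q : Matrix (Fin r) (Fin r) ℤ) (x y : Fin r → ℤ) :
    ∃ k : ℤ, qR q (zr x) (zr y) = k :=
  ⟨∑ i, ∑ j, q i j * (x i * y j), by simp [qR, zr]⟩

/-- an isometry fixing vectors `h i` which cut out the span of the frame lies in the group -/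
theorem mem_Gp {ι : Type} (h : ι → Fin r → ℂ) (hp : ∀ i, Pp F (h i))
    (hs : ∀ y, (∀ i, qC B.q y (h i) = 0) → InT F y) (g : (Matrix (Fin r) (Fin r) ℤ)ˣ)
    (hq : ∀ x y, qC B.q (ac g x) (ac g y) = qC B.q x y) (hf : ∀ i, ac g (h i) = h i) :
    g ∈ Gp F := by
  refine ⟨hq, fun k hk => ?_⟩
  have h1 : InT F (ac g k - k) := hs _ fun i => by
    rw [qC_eq, map_sub, LinearMap.sub_apply, ← qC_eq, ← qC_eq]
    conv_lhs => rw [← hf i, hq, hf i]
    exact sub_self _
  have h2 : ∀ y, InT F y → qC B.q y (ac g k) = 0 := by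
    intro y hy
    have h3 : ac g (ac (g⁻¹ : (Matrix (Fin r) (Fin r) ℤ)ˣ) y) = y := by
      rw [← ac_mul, Units.mul_inv, ac_one]
    have h4 : InT F (ac (g⁻¹ : (Matrix (Fin r) (Fin r) ℤ)ˣ) y) := hs _ fun i => by
      rw [← hq, h3, hf i]
      exact inT_iff.1 hy _ (hp i)
    rw [← h3, hq]
    exact inT_iff.1 h4 k hk
  refine sub_eq_zero.1 (nondeg B fun z => ?_)
  have h5 : z = un F (co F z) + (z - un F (co F z)) := by abel
  rw [h5, qC_eq, map_add, ← qC_eq, ← qC_eq, inT_iff.1 h1 _ (pp_sub F z), qC_symm B.symm, qC_eq,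
    map_sub, ← qC_eq, ← qC_eq, h2 _ (inT_un F _), qC_un_pp hk]
  simp

end Grp

theorem arith (F : Fr B) : Arith (eps F) (rho F) where
  pos := eps_pos F
  inj := by
    rw [injective_iff_map_eq_one]
    intro g hg
    have h1 : ∀ y, ga g y = y := by
      intro y
      have h2 : y = un F (co F y) + (y - un F (co F y)) := by abel
      have h3 := un_ap g (co F y)
      rw [hg, ap_one] at h3
      have h4 := ga_pp g (pp_sub F y)
      calc ga g y = ga g (un F (co F y)) + ga g (y - un F (co F y)) := by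
            rw [ga, ga, ga, ← ac_add, ← h2]
        _ = y := by rw [← h3, h4, ← h2]
    refine Subtype.ext (Units.ext ?_)
    ext i j
    have h5 := congrFun (h1 (Pi.single j 1)) i
    simp only [ga, ac, Matrix.mulVec_single_one, Matrix.col_apply, Matrix.map_apply] at h5
    have h6 : ((1 : Matrix (Fin r) (Fin r) ℤ) i j : ℂ) = (Pi.single j 1 : Fin r → ℂ) i := by
      by_cases h : i = j
      · subst h; simp
      · simp [h]
    rw [← h6] at h5
    exact_mod_cast h5
  iso g := by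
    have h1 : ∀ c c', qf (eps F) (ap (rho F g) c) (ap (rho F g) c') = qf (eps F) c c' := by
      intro c c'
      refine mul_left_cancel₀ (D0 F) ?_
      rw [← qC_un_un, ← qC_un_un, un_ap, un_ap, ga_q]
    ext i j
    have h2 := h1 (Pi.single i 1) (Pi.single j 1)
    have h3 : (((rho F g)ᵀ * Qm (eps F) * rho F g) i j : ℂ) = (Qm (eps F) i j : ℝ) := by
      fin_cases i <;> fin_cases j <;>
        simp [qf, ap] at h2 <;> simp [Qm, Matrix.mul_apply, Fin.sum_univ_three] <;>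
        linear_combination h2
    exact_mod_cast h3
  den := by
    obtain ⟨d, hd⟩ := qR_int B.q F.l F.m
    obtain ⟨e, he⟩ := qR_int B.q F.v F.v
    rw [F.lm] at hd
    rw [F.vv] at he
    have d0 : 0 < d := by have := F.Dpos; rw [hd] at this; exact_mod_cast this
    have e0 : 0 < e := by have := F.epos; rw [he] at this; exact_mod_cast this
    refine ⟨(d * e).toNat, by have := mul_pos d0 e0; omega, fun g i j => ?_⟩
    have h1 : (((d * e).toNat : ℕ) : ℝ) = F.D * F.e := by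
      rw [hd, he, ← Int.cast_mul, ← Int.cast_natCast, Int.toNat_of_nonneg (mul_pos d0 e0).le]
    have hD := F.Dpos.ne'
    have hE := F.epos.ne'
    rw [h1]
    show ∃ k : ℤ, F.D * F.e * mtx F _ i j = k
    fin_cases i
    · obtain ⟨k, hk⟩ := qR_int B.q ((g.1 : Matrix (Fin r) (Fin r) ℤ) *ᵥ fr F j) F.m
      refine ⟨e * k, ?_⟩
      simp only [mtx, hk, Int.cast_mul, ← he]
      simp
      field_simp
    · obtain ⟨k, hk⟩ := qR_int B.q ((g.1 : Matrix (Fin r) (Fin r) ℤ) *ᵥ fr F j) F.v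
      refine ⟨d * k, ?_⟩
      simp only [mtx, hk, Int.cast_mul, ← hd]
      simp
      field_simp
    · obtain ⟨k, hk⟩ := qR_int B.q ((g.1 : Matrix (Fin r) (Fin r) ℤ) *ᵥ fr F j) F.l
      refine ⟨e * k, ?_⟩
      simp only [mtx, hk, Int.cast_mul, ← he]
      simp
      field_simp

end Vale.Agent.P301Z.Ry
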