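import Mathlib

/-! P301, block RAY: the vertical ray in the period domain of a lattice of signature (2,1) lifts to
a punctured compact curve and ends at a puncture whose cusp is the given isotropic vector.
Coordinates on `T`: `v = v 0 * l + v 1 * e + v 2 * f`, `q(l,f) = 1`, `q(e,e) = ε`, others zero. -/

open scoped Topology Matrix
open Filter Set Metric

namespace Vale.Agent.P301Z.Ry

/-- The bilinear form. `qf ε v l = v 2`. -/
def qf (ε : ℝ) (v w : Fin 3 → ℂ) : ℂ := v 0 * w 2 + v 2 * w 0 + ε * (v 1 * w 1)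

/-- Its Gram matrix. -/
def Qm (ε : ℝ) : Matrix (Fin 3) (Fin 3) ℝ := !![0, 0, 1; 0, ε, 0; 1, 0, 0]

/-- The period normalised by `q(s, l) = 1`. -/
noncomputable def sg (ε : ℝ) (τ : ℂ) : Fin 3 → ℂ := ![-(ε * τ ^ 2 / 2), τ, 1]

/-- The unipotent isometry with `Um ε h (sg ε τ) = sg ε (τ + h)`. -/
noncomputable def Um (ε h : ℝ) : Matrix (Fin 3) (Fin 3) ℝ :=
  !![1, -(ε * h), -(ε * h ^ 2 / 2); 0, 1, h; 0, 0, 1]

/-- A real matrix applied to a complex vector. -/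
noncomputable def ap (M : Matrix (Fin 3) (Fin 3) ℝ) (v : Fin 3 → ℂ) : Fin 3 → ℂ :=
  fun i => M i 0 * v 0 + M i 1 * v 1 + M i 2 * v 2

/-- The cone over the period domain. -/
def Dom (ε : ℝ) (v : Fin 3 → ℂ) : Prop := qf ε v v = 0 ∧ 0 < (qf ε v (star v)).re

/-- A group of isometries with bounded denominators. -/
structure Arith (ε : ℝ) {G : Type*} [Group G] (ρ : G →* Matrix (Fin 3) (Fin 3) ℝ) : Prop where
  pos : 0 < ε
  inj : Function.Injective ρ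
  iso : ∀ g, (ρ g)ᵀ * Qm ε * ρ g = Qm ε
  den : ∃ D : ℕ, 0 < D ∧ ∀ g i j, ∃ k : ℤ, (D : ℝ) * ρ g i j = k

/-- Period data on a punctured curve: cover `U`, locally constant cocycle `g`, periods `s`,
a holomorphic coordinate `ch c` near every point `c`. -/
structure Per (ε : ℝ) {G : Type*} [Group G] (ρ : G →* Matrix (Fin 3) (Fin 3) ℝ)
    {C : Type*} [TopologicalSpace C] (S : Set C) (ch : C → OpenPartialHomeomorph C ℂ)
    {A : Type*} (U : A → Set C) (g : A → A → C → G) (s : A → C → Fin 3 → ℂ) : Prop where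
  fin : S.Finite
  mem : ∀ c, c ∈ (ch c).source
  opn : ∀ a, IsOpen (U a)
  off : ∀ a t, t ∈ U a → t ∉ S
  cov : ∀ t, t ∉ S → ∃ a, t ∈ U a
  loc : ∀ a b t, t ∈ U a → t ∈ U b → ∀ᶠ t' in 𝓝 t, g a b t' = g a b t
  coc : ∀ a b c t, t ∈ U a → t ∈ U b → t ∈ U c → g a b t * g b c t = g a c t
  dom : ∀ a t, t ∈ U a → Dom ε (s a t)
  chg : ∀ a b t, t ∈ U a → t ∈ U b → ∃ k : ℂ, s a t = k • ap (ρ (g a b t)) (s b t)
  hol : ∀ a c i, DifferentiableOn ℂ (fun w => s a ((ch c).symm w) i)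
    ((ch c).target ∩ (ch c).symm ⁻¹' U a)
  ncst : ∃ a t, t ∈ U a ∧ ¬ ∀ᶠ t' in 𝓝 t, ∃ k : ℂ, s a t' = k • s a t

/-- A map `t` from `W` to the punctured curve with a flat marking `μ` and marked period `τ`. -/
structure Marked (ε : ℝ) {G : Type*} [Group G] (ρ : G →* Matrix (Fin 3) (Fin 3) ℝ)
    {C : Type*} [TopologicalSpace C] (S : Set C)
    {A : Type*} (U : A → Set C) (g : A → A → C → G) (s : A → C → Fin 3 → ℂ)
    {Y : Type*} [TopologicalSpace Y] (W : Set Y) (t : Y → C) (μ : A → Y → G) (τ : Y → ℂ) :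
    Prop where
  cont : ContinuousOn t W
  off : ∀ y ∈ W, t y ∉ S
  loc : ∀ a, ∀ y ∈ W, t y ∈ U a → ∀ᶠ y' in 𝓝[W] y, μ a y' = μ a y
  chg : ∀ a b, ∀ y ∈ W, t y ∈ U a → t y ∈ U b → μ b y = μ a y * g a b (t y)
  per : ∀ a, ∀ y ∈ W, t y ∈ U a → ∃ k : ℂ, k ≠ 0 ∧ ap (ρ (μ a y)) (s a (t y)) = k • sg ε (τ y)

/-- The upper half plane as a set. -/
def Hp : Set ℂ := {z | 0 < z.im}

/-- The universal cover of the punctured disc of radius `r` at `c`. -/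
noncomputable def pt {C : Type*} [TopologicalSpace C] (ch : C → OpenPartialHomeomorph C ℂ) (c : C)
    (r : ℝ) (z : ℂ) : C :=
  (ch c).symm (ch c c + r * Complex.exp (2 * Real.pi * Complex.I * z))

/-- The main statement. Outside a countable set of real parts, the vertical ray from any marked
point lifts, and it ends at a puncture with monodromy `± Um ε h`, `h > 0`. -/
def RAY : Prop :=
  ∀ (ε : ℝ) (G : Type) [Group G] (ρ : G →* Matrix (Fin 3) (Fin 3) ℝ)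
    (C : Type) [TopologicalSpace C] [T2Space C] [CompactSpace C] [PreconnectedSpace C]
    (S : Set C) (ch : C → OpenPartialHomeomorph C ℂ)
    (A : Type) (U : A → Set C) (g : A → A → C → G) (s : A → C → Fin 3 → ℂ),
    Arith ε ρ → Per ε ρ S ch U g s →
    ∃ Z : Set ℝ, Z.Countable ∧ ∀ x T₀ : ℝ, x ∉ Z → 0 < T₀ → ∀ (a₀ : A) (t₀ : C) (g₀ : G),
      t₀ ∈ U a₀ → (∃ k : ℂ, ap (ρ g₀) (s a₀ t₀) = k • sg ε (x + T₀ * Complex.I)) →
      ∃ (t : ℝ → C) (μ : A → ℝ → G), t T₀ = t₀ ∧ μ a₀ T₀ = g₀ ∧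
        Marked ε ρ S U g s (Ici T₀) t μ (fun T => x + T * Complex.I) ∧
        ∃ (c : C) (r h lam B T₁ : ℝ) (ν : A → ℂ → G) (P f : ℂ → ℂ) (γ : G) (ζ : ℝ → ℂ),
          c ∈ S ∧ 0 < r ∧ closedBall (ch c c) r ⊆ (ch c).target ∧
          (∀ w ∈ closedBall (ch c c) r, (ch c).symm w ∈ S → w = ch c c) ∧
          Marked ε ρ S U g s Hp (pt ch c r) ν P ∧
          0 < h ∧ (lam = 1 ∨ lam = -1) ∧ ρ γ = lam • Um ε h ∧
          (∀ a, ∀ z ∈ Hp, pt ch c r z ∈ U a → ν a (z + 1) = γ * ν a z) ∧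
          DifferentiableOn ℂ f (ball 0 1) ∧
          (∀ z ∈ Hp, 0 < (P z).im ∧ P z = h * z + f (Complex.exp (2 * Real.pi * Complex.I * z))) ∧
          (∀ z : ℂ, 1 ≤ z.im → |(P z).im - h * z.im| ≤ B) ∧
          T₀ ≤ T₁ ∧ ContinuousOn ζ (Ici T₁) ∧ Tendsto (fun T => (ζ T).im) atTop atTop ∧
          Tendsto t atTop (𝓝 c) ∧
          ∀ T, T₁ ≤ T → ζ T ∈ Hp ∧ pt ch c r (ζ T) = t T ∧ P (ζ T) = x + T * Complex.I ∧
            ∀ a, t T ∈ U a → ν a (ζ T) = μ a T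

/-! Rows. -/

/-- The coordinate on the period domain. -/
noncomputable def tau (v : Fin 3 → ℂ) : ℂ := v 1 / v 2

/-- The action on the coordinate. -/
noncomputable def act (ε : ℝ) (M : Matrix (Fin 3) (Fin 3) ℝ) (τ : ℂ) : ℂ := tau (ap M (sg ε τ))

/-- Linear algebra of the period domain. -/
def LIN : Prop :=
  ∀ ε : ℝ, 0 < ε →
    (∀ v, Dom ε v → v 2 ≠ 0 ∧ (tau v).im ≠ 0 ∧ v = v 2 • sg ε (tau v)) ∧
    (∀ τ : ℂ, τ.im ≠ 0 → Dom ε (sg ε τ)) ∧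
    (∀ (M : Matrix (Fin 3) (Fin 3) ℝ) v, Mᵀ * Qm ε * M = Qm ε → Dom ε v → Dom ε (ap M v)) ∧
    (∀ (k : ℂ) v, k ≠ 0 → Dom ε v → Dom ε (k • v))

/-- The cusp `l`: imaginary parts of orbits are bounded, locally uniformly; and proper
discontinuity along ultrafilters. -/
def DISC : Prop :=
  ∀ (ε : ℝ) (G : Type) [Group G] (ρ : G →* Matrix (Fin 3) (Fin 3) ℝ), Arith ε ρ →
    Countable G ∧
    (∀ τ₀ : ℂ, τ₀.im ≠ 0 → ∃ B : ℝ, ∀ᶠ τ in 𝓝 τ₀, ∀ g, |(act ε (ρ g) τ).im| ≤ B) ∧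
    ∀ (Y : Type) (F : Ultrafilter Y) (τ : Y → ℂ) (m : Y → G) (τ₀ τ₁ : ℂ), τ₀.im ≠ 0 → τ₁.im ≠ 0 →
      Tendsto τ F (𝓝 τ₀) → Tendsto (fun y => act ε (ρ (m y)) (τ y)) F (𝓝 τ₁) →
      ∃ g, ∀ᶠ y in (F : Filter Y), m y = g

/-- An element moving a sequence that tends to the cusp to such a sequence is `± Um`. -/
def PARA : Prop :=
  ∀ (ε : ℝ) (G : Type) [Group G] (ρ : G →* Matrix (Fin 3) (Fin 3) ℝ), Arith ε ρ →
    ∀ (g : G) (Y : Type) (F : Filter Y) (τ : Y → ℂ), F.NeBot →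
      (∀ᶠ y in F, 0 < (τ y).im ∧ 0 < (act ε (ρ g) (τ y)).im) →
      Tendsto (fun y => ‖τ y‖) F atTop → Tendsto (fun y => ‖act ε (ρ g) (τ y)‖) F atTop →
      ∃ lam h : ℝ, (lam = 1 ∨ lam = -1) ∧ ρ g = lam • Um ε h ∧
        ∀ w : ℂ, act ε (ρ g) w = w + h

/-- Schwarz lemma at the cusp: `P (z + 1)` has the same limit as `P z`, finite or infinite. -/
def SCH : Prop :=
  ∀ P : ℂ → ℂ, DifferentiableOn ℂ P Hp → (∀ z ∈ Hp, 0 < (P z).im) →
    ∀ (Y : Type) (F : Filter Y) (z : Y → ℂ), Tendsto (fun y => (z y).im) F atTop →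
      (∀ τ : ℂ, 0 < τ.im → Tendsto (fun y => P (z y)) F (𝓝 τ) →
        Tendsto (fun y => P (z y + 1)) F (𝓝 τ)) ∧
      (Tendsto (fun y => (P (z y)).im) F atTop → Tendsto (fun y => ‖P (z y + 1)‖) F atTop)

/-- Finite limit values at a puncture are countably many. -/
def LIM : Prop :=
  ∀ (ε : ℝ) (M : Matrix (Fin 3) (Fin 3) ℝ) (P : ℂ → ℂ), 0 < ε → Mᵀ * Qm ε * M = Qm ε →
    DifferentiableOn ℂ P Hp → (∀ z ∈ Hp, 0 < (P z).im) →
    (∀ z ∈ Hp, P (z + 1) = act ε M (P z)) →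
    {τ : ℂ | 0 < τ.im ∧ ∃ F : Filter ℂ, F.NeBot ∧ Tendsto Complex.im F atTop ∧
      Tendsto P F (𝓝 τ)}.Countable

/-- Normal form at a parabolic puncture. -/
def NF : Prop :=
  ∀ (P : ℂ → ℂ) (h : ℝ), DifferentiableOn ℂ P Hp → (∀ z ∈ Hp, 0 < (P z).im) →
    (∀ z ∈ Hp, P (z + 1) = P z + h) →
    (∃ F : Filter ℂ, F.NeBot ∧ Tendsto Complex.im F atTop ∧
      Tendsto (fun z => (P z).im) F atTop) →
    0 < h ∧ ∃ (f : ℂ → ℂ) (B : ℝ), DifferentiableOn ℂ f (ball 0 1) ∧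
      (∀ z ∈ Hp, P z = h * z + f (Complex.exp (2 * Real.pi * Complex.I * z))) ∧
      ∀ z : ℂ, 1 ≤ z.im → |(P z).im - h * z.im| ≤ B

/-- Lifting a path through a map which is a local homeomorphism over the path and does not let
lifts escape in finite time. -/
def LIFT : Prop :=
  ∀ (E X : Type) [TopologicalSpace E] [T2Space E] [TopologicalSpace X] [T2Space X] (P : E → X)
    (r : ℝ → X) (T₀ : ℝ) (e₀ : E), Continuous P → Continuous r → P e₀ = r T₀ →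
    (∀ e T, T₀ ≤ T → P e = r T →
      ∃ Φ : OpenPartialHomeomorph E X, e ∈ Φ.source ∧ EqOn P Φ Φ.source) →
    (∀ (T₁ : ℝ) (γ : ℝ → E), T₀ < T₁ → ContinuousOn γ (Ico T₀ T₁) →
      (∀ T ∈ Ico T₀ T₁, P (γ T) = r T) → ∃ e, MapClusterPt e (𝓝[<] T₁) γ) →
    ∃ γ : ℝ → E, ContinuousOn γ (Ici T₀) ∧ γ T₀ = e₀ ∧ ∀ T, T₀ ≤ T → P (γ T) = r T

/-- A path on an end `J` of an interval (`F` is `𝓝[<] T₁` or `atTop`) without cluster point off
`S` converges to a point of `S` and lifts to the universal cover of the punctured disc. -/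
def ESC : Prop :=
  ∀ (C : Type) [TopologicalSpace C] [T2Space C] [CompactSpace C] (S : Set C)
    (ch : C → OpenPartialHomeomorph C ℂ) (r : C → ℝ), S.Finite → (∀ c, c ∈ (ch c).source) →
    (∀ c, 0 < r c) → (∀ c, closedBall (ch c c) (r c) ⊆ (ch c).target) →
    ∀ (F : Filter ℝ) (J : Set ℝ) (t : ℝ → C), F.NeBot → J.OrdConnected →
      (∀ T ∈ J, J ∩ Ioi T ∈ F) → (∀ V ∈ F, ∃ T ∈ J, J ∩ Ici T ⊆ V) →
      ContinuousOn t J → (∀ T ∈ J, t T ∉ S) → (∀ c, MapClusterPt c F t → c ∈ S) →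
      ∃ c ∈ S, Tendsto t F (𝓝 c) ∧ ∃ T₁ ∈ J, ∃ ζ : ℝ → ℂ, ContinuousOn ζ (J ∩ Ici T₁) ∧
        Tendsto (fun T => (ζ T).im) F atTop ∧
        ∀ T ∈ J, T₁ ≤ T → ζ T ∈ Hp ∧ pt ch c (r c) (ζ T) = t T

/-- The marked period is nowhere locally constant, and has countably many critical points. -/
def CRIT : Prop :=
  ∀ (ε : ℝ) (G : Type) [Group G] (ρ : G →* Matrix (Fin 3) (Fin 3) ℝ)
    (C : Type) [TopologicalSpace C] [T2Space C] [CompactSpace C] [PreconnectedSpace C]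
    (S : Set C) (ch : C → OpenPartialHomeomorph C ℂ)
    (A : Type) (U : A → Set C) (g : A → A → C → G) (s : A → C → Fin 3 → ℂ),
    Arith ε ρ → Per ε ρ S ch U g s →
    ∃ R : Set C, R.Countable ∧ ∀ a t (m : G), t ∈ U a → t ∉ R →
      ∃ Φ : OpenPartialHomeomorph C ℂ, t ∈ Φ.source ∧
        EqOn (fun t' => tau (ap (ρ m) (s a t'))) Φ Φ.source

/-- The marked period map is open. -/
def OPN : Prop :=
  ∀ (ε : ℝ) (G : Type) [Group G] (ρ : G →* Matrix (Fin 3) (Fin 3) ℝ)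
    (C : Type) [TopologicalSpace C] [T2Space C] [CompactSpace C] [PreconnectedSpace C]
    (S : Set C) (ch : C → OpenPartialHomeomorph C ℂ)
    (A : Type) (U : A → Set C) (g : A → A → C → G) (s : A → C → Fin 3 → ℂ),
    Arith ε ρ → Per ε ρ S ch U g s →
    ∀ a t (m : G), t ∈ U a →
      𝓝 (tau (ap (ρ m) (s a t))) ≤ map (fun t' => tau (ap (ρ m) (s a t'))) (𝓝 t)

end Vale.Agent.P301Z.Ry
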