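import Vale.Agent.P301Z.Ry.Sec

/-! P301, block RAY: the punctured disc and its universal cover. -/

open scoped Topology Matrix
open Filter Set Metric

namespace Vale.Agent.P301Z.Ry.Dsc

open Cov

variable {ε : ℝ} {G : Type} [Group G] {ρ : G →* Matrix (Fin 3) (Fin 3) ℝ}
  {C : Type} [TopologicalSpace C] {ch : C → OpenPartialHomeomorph C ℂ} {c : C} {r : ℝ}

theorem two_pi_I_ne : (2 * Real.pi * Complex.I : ℂ) ≠ 0 := Complex.two_pi_I_ne_zero

theorem ch_pt (hr : 0 < r) (h : closedBall (ch c c) r ⊆ (ch c).target) {z : ℂ} (hz : z ∈ Hp) :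
    ch c (pt ch c r z) - ch c c = r * Complex.exp (2 * Real.pi * Complex.I * z) := by
  rw [pt, (ch c).right_inv (h (w_mem _ hr hz)), add_sub_cancel_left]

theorem log_pt (hr : 0 < r) (h : closedBall (ch c c) r ⊆ (ch c).target) {z : ℂ} (hz : z ∈ Hp) :
    Real.log ‖ch c (pt ch c r z) - ch c c‖ = Real.log r - 2 * Real.pi * z.im := by
  rw [ch_pt hr h hz, norm_mul, Complex.norm_real, Real.norm_of_nonneg hr.le, Complex.norm_exp,
    Real.log_mul hr.ne' (Real.exp_pos _).ne', Real.log_exp]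
  simp [sub_eq_add_neg]

theorem nhds_le (hr : 0 < r) (h : closedBall (ch c c) r ⊆ (ch c).target) {z : ℂ} (hz : z ∈ Hp) :
    𝓝 (pt ch c r z) ≤ map (pt ch c r) (𝓝 z) := by
  have h1 : HasStrictDerivAt
      (fun z : ℂ => ch c c + r * Complex.exp (2 * Real.pi * Complex.I * z))
      (r * (Complex.exp (2 * Real.pi * Complex.I * z) * (2 * Real.pi * Complex.I * 1))) z :=
    ((((hasStrictDerivAt_id z).const_mul _).cexp).const_mul _).const_add _
  have h2 := h1.map_nhds_eq (mul_ne_zero (Complex.ofReal_ne_zero.2 hr.ne')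
    (mul_ne_zero (Complex.exp_ne_zero _) (mul_ne_zero two_pi_I_ne one_ne_zero)))
  have h3 := (ch c).symm.map_nhds_eq (h (w_mem _ hr hz))
  rw [← h2, map_map] at h3
  exact h3.ge

theorem isOpen_img (hr : 0 < r) (h : closedBall (ch c c) r ⊆ (ch c).target) :
    IsOpen (pt ch c r '' Hp) := by
  refine isOpen_iff_mem_nhds.2 ?_
  rintro _ ⟨z, hz, rfl⟩
  exact nhds_le hr h hz (image_mem_map (isOpen_Hp.mem_nhds hz))

theorem near (hc : c ∈ (ch c).source) (hr : 0 < r) (M : ℝ) :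
    ∀ᶠ y in 𝓝[≠] c, ∃ z : ℂ, M < z.im ∧ pt ch c r z = y := by
  have h0 : 0 < r * Real.exp (-(2 * Real.pi * M)) := by positivity
  have h1 : ∀ᶠ y in 𝓝 c, ch c y ∈ ball (ch c c) (r * Real.exp (-(2 * Real.pi * M))) :=
    ((ch c).continuousAt hc).eventually (ball_mem_nhds _ h0)
  filter_upwards [mem_nhdsWithin_of_mem_nhds h1,
    mem_nhdsWithin_of_mem_nhds ((ch c).open_source.mem_nhds hc), self_mem_nhdsWithin]
    with y y1 y2 y3
  have hr' : (r : ℂ) ≠ 0 := Complex.ofReal_ne_zero.2 hr.ne'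
  have h2 : (ch c y - ch c c) / r ≠ 0 :=
    div_ne_zero (sub_ne_zero.2 fun h => y3 ((ch c).injOn y2 hc h)) hr'
  have h3 : 2 * Real.pi * Complex.I * (Complex.log ((ch c y - ch c c) / r) /
      (2 * Real.pi * Complex.I)) = Complex.log ((ch c y - ch c c) / r) :=
    mul_div_cancel₀ _ two_pi_I_ne
  refine ⟨Complex.log ((ch c y - ch c c) / r) / (2 * Real.pi * Complex.I), ?_, ?_⟩
  · generalize Complex.log ((ch c y - ch c c) / r) / (2 * Real.pi * Complex.I) = z at h3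
    have h4 := congrArg Complex.re h3
    rw [Complex.log_re] at h4
    have h5 : ‖(ch c y - ch c c) / r‖ < Real.exp (-(2 * Real.pi * M)) := by
      rw [norm_div, Complex.norm_real, Real.norm_of_nonneg hr.le, div_lt_iff₀ hr, mul_comm]
      rwa [mem_ball, dist_eq_norm] at y1
    have h6 := Real.log_lt_log (norm_pos_iff.2 h2) h5
    rw [Real.log_exp, ← h4] at h6
    have h7 : (2 * Real.pi * Complex.I * z : ℂ).re = -(2 * Real.pi * z.im) := by simp
    rw [h7] at h6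
    have := Real.pi_pos
    nlinarith
  · rw [pt, h3, Complex.exp_log h2, mul_div_cancel₀ _ hr', add_sub_cancel, (ch c).left_inv y2]

theorem int_of_eq (hr : 0 < r) (h : closedBall (ch c c) r ⊆ (ch c).target) {z z' : ℂ}
    (hz : z ∈ Hp) (hz' : z' ∈ Hp) (e : pt ch c r z = pt ch c r z') : ∃ j : ℤ, z = z' + j := by
  have h1 := ch_pt hr h hz
  rw [e, ch_pt hr h hz'] at h1
  obtain ⟨j, hj⟩ := Complex.exp_eq_exp_iff_exists_int.1
    (mul_left_cancel₀ (Complex.ofReal_ne_zero.2 hr.ne') h1).symm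
  refine ⟨j, mul_left_cancel₀ two_pi_I_ne ?_⟩
  rw [hj]
  ring

theorem pt_add_int (j : ℤ) (z : ℂ) : pt ch c r (z + j) = pt ch c r z := by
  rw [pt, pt, mul_add, Complex.exp_add, mul_comm _ (j : ℂ), Complex.exp_int_mul_two_pi_mul_I,
    mul_one]

theorem add_int_mem (j : ℤ) {z : ℂ} (hz : z ∈ Hp) : z + j ∈ Hp := by simpa [Hp] using hz

theorem mono_int {V : Set C} {ν : ℂ → G} {γ : G}
    (h : ∀ z ∈ Hp, pt ch c r z ∈ V → ν (z + 1) = γ * ν z) {z : ℂ} (hz : z ∈ Hp)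
    (hV : pt ch c r z ∈ V) (j : ℤ) : ν (z + j) = γ ^ j * ν z := by
  induction j using Int.induction_on with
  | zero => simp
  | succ j ih =>
    have h1 := h _ (add_int_mem (j : ℤ) hz) (by rw [pt_add_int]; exact hV)
    rw [Int.cast_add, Int.cast_one, ← add_assoc, h1, ih]
    group
  | pred j ih =>
    have h1 := h _ (add_int_mem (-(j : ℤ) - 1) hz) (by rw [pt_add_int]; exact hV)
    have h2 : z + ((-(j : ℤ) - 1 : ℤ) : ℂ) + 1 = z + ((-(j : ℤ) : ℤ) : ℂ) := by push_cast; ring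
    rw [h2, ih] at h1
    rw [eq_inv_mul_iff_mul_eq.2 h1.symm]
    group

theorem rho_int {h lam : ℝ} (hl : lam = 1 ∨ lam = -1) {γ : G} (hγ : ρ γ = lam • Um ε h) (j : ℤ) :
    ∃ l : ℝ, l ^ 2 = 1 ∧ ρ (γ ^ j) = l • Um ε (j * h) := by
  have h0 : lam * lam = 1 := by rcases hl with rfl | rfl <;> simp
  have h1 : ρ γ⁻¹ = lam • Um ε (-h) := by
    have h2 : ρ γ * (lam • Um ε (-h)) = 1 := by
      rw [hγ, smul_mul_smul_comm, h0, one_smul, Um_mul, add_neg_cancel, Um_zero]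
    calc ρ γ⁻¹ = ρ γ⁻¹ * (ρ γ * (lam • Um ε (-h))) := by rw [h2, mul_one]
      _ = lam • Um ε (-h) := by rw [← mul_assoc, ← map_mul, inv_mul_cancel, map_one, one_mul]
  induction j using Int.induction_on with
  | zero => exact ⟨1, by simp, by simp [Um_zero]⟩
  | succ j ih =>
    obtain ⟨l, l1, l2⟩ := ih
    refine ⟨l * lam, by rw [mul_pow, l1, one_mul, sq, h0], ?_⟩
    rw [zpow_add_one, map_mul, l2, hγ, smul_mul_smul_comm, Um_mul]
    congr 2
    push_cast
    ring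
  | pred j ih =>
    obtain ⟨l, l1, l2⟩ := ih
    refine ⟨l * lam, by rw [mul_pow, l1, one_mul, sq, h0], ?_⟩
    rw [zpow_sub_one, map_mul, l2, h1, smul_mul_smul_comm, Um_mul]
    congr 2
    push_cast
    ring

theorem ap_rsmul (l : ℝ) (M : Matrix (Fin 3) (Fin 3) ℝ) (v : Fin 3 → ℂ) :
    ap (l • M) v = (l : ℂ) • ap M v := by
  funext i
  simp only [ap, Matrix.smul_apply, smul_eq_mul, Pi.smul_apply]
  push_cast
  ring

/-- Two points of the universal cover over the same point. -/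
theorem deck (hr : 0 < r) (hb : closedBall (ch c c) r ⊆ (ch c).target) {A : Type} {U : A → Set C}
    {ν : A → ℂ → G} {γ : G} {h lam : ℝ} {P f : ℂ → ℂ} (hl : lam = 1 ∨ lam = -1)
    (hγ : ρ γ = lam • Um ε h)
    (hν : ∀ a, ∀ z ∈ Hp, pt ch c r z ∈ U a → ν a (z + 1) = γ * ν a z)
    (hP : ∀ z ∈ Hp, 0 < (P z).im ∧ P z = h * z + f (Complex.exp (2 * Real.pi * Complex.I * z)))
    {z z' : ℂ} (hz : z ∈ Hp) (hz' : z' ∈ Hp) (e : pt ch c r z = pt ch c r z') :
    ∃ (δ : G) (l : ℂ), l ^ 2 = 1 ∧ (∀ a, pt ch c r z ∈ U a → ν a z = δ * ν a z') ∧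
      ap (ρ δ) (sg ε (P z')) = l • sg ε (P z) := by
  obtain ⟨j, rfl⟩ := int_of_eq hr hb hz hz' e
  obtain ⟨l, l1, l2⟩ := rho_int hl hγ j
  refine ⟨γ ^ j, l, by exact_mod_cast l1, fun a ha => mono_int (hν a) hz' (e ▸ ha) j, ?_⟩
  rw [l2, ap_rsmul, ap_Um, (hP _ hz).2, (hP _ hz').2, mul_add (2 * Real.pi * Complex.I : ℂ),
    Complex.exp_add, mul_comm _ (j : ℂ), Complex.exp_int_mul_two_pi_mul_I, mul_one]
  congr 2
  push_cast
  ring

/-- The period grows at most like the logarithm of the coordinate. -/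
theorem im_le (hc : c ∈ (ch c).source) (hr : 0 < r) (hb : closedBall (ch c c) r ⊆ (ch c).target)
    {h B : ℝ} {P : ℂ → ℂ} (hh : 0 < h) (hB : ∀ z : ℂ, 1 ≤ z.im → |(P z).im - h * z.im| ≤ B) :
    ∀ᶠ y in 𝓝[≠] c, y ∈ pt ch c r '' Hp ∧ ∀ z ∈ Hp, pt ch c r z = y →
      |(P z).im| ≤ (h + |B|) * |Real.log ‖ch c y - ch c c‖| := by
  filter_upwards [near hc hr (max 1 |Real.log r|)] with y ⟨z₀, h1, h2⟩
  have h3 : 1 < z₀.im := (le_max_left _ _).trans_lt h1
  have h4 : |Real.log r| < z₀.im := (le_max_right _ _).trans_lt h1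
  have h5 : z₀ ∈ Hp := show 0 < z₀.im by linarith
  refine ⟨⟨z₀, h5, h2⟩, fun z hz e => ?_⟩
  obtain ⟨j, hj⟩ := int_of_eq hr hb hz h5 (e.trans h2.symm)
  have h6 : z.im = z₀.im := by rw [hj]; simp
  have h7 := hB z (by linarith)
  rw [← e, log_pt hr hb hz, h6]
  rw [h6] at h7
  have h8 : z₀.im ≤ |Real.log r - 2 * Real.pi * z₀.im| := by
    rw [abs_sub_comm]
    refine le_trans ?_ (le_abs_self _)
    have := le_abs_self (Real.log r)
    nlinarith [Real.two_le_pi]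
  have h9 : |(P z).im| ≤ (h + |B|) * z₀.im := by
    have e1 := abs_le.1 h7
    have e2 := le_abs_self B
    have e3 := abs_nonneg B
    rw [abs_le]
    constructor <;> nlinarith
  exact h9.trans (mul_le_mul_of_nonneg_left h8 (by positivity))

/-- The logarithm of the coordinate along the ray. -/
theorem grow (hr : 0 < r) (hb : closedBall (ch c c) r ⊆ (ch c).target) {h B : ℝ} {P : ℂ → ℂ}
    (hh : 0 < h) (hB : ∀ z : ℂ, 1 ≤ z.im → |(P z).im - h * z.im| ≤ B) {z : ℂ} (hz : 1 ≤ z.im) :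
    |-Real.log ‖ch c (pt ch c r z) - ch c c‖ - 2 * Real.pi / h * (P z).im| ≤
      |Real.log r| + 2 * Real.pi / h * B := by
  have h0 : z ∈ Hp := show 0 < z.im by linarith
  have h1 : -Real.log ‖ch c (pt ch c r z) - ch c c‖ - 2 * Real.pi / h * (P z).im =
      -Real.log r - 2 * Real.pi / h * ((P z).im - h * z.im) := by
    rw [log_pt hr hb h0]
    field_simp
    ring
  have h2 : 0 < 2 * Real.pi / h := by have := Real.pi_pos; positivity
  rw [h1]
  refine (abs_sub _ _).trans ?_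
  rw [abs_neg, abs_mul, abs_of_pos h2]
  exact add_le_add le_rfl (mul_le_mul_of_nonneg_left (hB z hz) h2.le)

end Vale.Agent.P301Z.Ry.Dsc
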