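import Vale.Agent.P301Z.Ry.Defs

/-! P301, block RAY: the covering space of marked points. -/

open scoped Topology Matrix
open Filter Set Metric

namespace Vale.Agent.P301Z.Ry.Cov

variable {ε : ℝ} {G : Type} [Group G] {ρ : G →* Matrix (Fin 3) (Fin 3) ℝ}
  {C : Type} [TopologicalSpace C] {S : Set C} {ch : C → OpenPartialHomeomorph C ℂ}
  {A : Type} {U : A → Set C} {g : A → A → C → G} {s : A → C → Fin 3 → ℂ}

/-- What is used of the covering space. -/
structure IsCov (S : Set C) (U : A → Set C) (g : A → A → C → G) {E : Type} [TopologicalSpace E]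
    (π : E → C) (mk : A → E → G) : Prop where
  cont : Continuous π
  off : ∀ e, π e ∉ S
  loc : ∀ a e, π e ∈ U a → ∀ᶠ e' in 𝓝 e, mk a e' = mk a e
  chg : ∀ a b e, π e ∈ U a → π e ∈ U b → mk b e = mk a e * g a b (π e)
  sur : ∀ a t m, t ∈ U a → ∃ e, π e = t ∧ mk a e = m
  ext : ∀ a e e', π e ∈ U a → π e' = π e → mk a e' = mk a e → e' = e
  lim : ∀ a e, π e ∈ U a → ∀ F : Filter E, Tendsto π F (𝓝 (π e)) →
    (∀ᶠ e' in F, mk a e' = mk a e) → F ≤ 𝓝 e
  hom : ∀ e, ∃ Φ : OpenPartialHomeomorph E C, e ∈ Φ.source ∧ EqOn π Φ Φ.source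
  lift : ∀ (f : ℂ → C) (z₀ : ℂ) (e₀ : E), ContinuousOn f Hp → (∀ z ∈ Hp, f z ∉ S) → z₀ ∈ Hp →
    π e₀ = f z₀ → ∃ L : ℂ → E, ContinuousOn L Hp ∧ L z₀ = e₀ ∧ ∀ z ∈ Hp, π (L z) = f z

/-- The bundle with fibre `G` given by the cocycle. -/
noncomputable def core [TopologicalSpace G] [DiscreteTopology G] (hP : Per ε ρ S ch U g s) :
    FiberBundleCore A (↥Sᶜ) G where
  baseSet a := Subtype.val ⁻¹' U a
  isOpen_baseSet a := (hP.opn a).preimage continuous_subtype_val
  indexAt t := (hP.cov t t.2).choose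
  mem_baseSet_at t := (hP.cov t t.2).choose_spec
  coordChange a b t m := m * g a b t
  coordChange_self a t ht m := by
    have h := hP.coc a a a t ht ht ht
    have h1 : g a a t = 1 := by simpa using h
    rw [h1, mul_one]
  continuousOn_coordChange a b := by
    rintro ⟨t, m⟩ ⟨⟨ha, hb⟩, -⟩
    have h1 : ∀ᶠ p : (↥Sᶜ) × G in 𝓝 (t, m), g a b p.1 = g a b t :=
      ((continuous_subtype_val.comp continuous_fst).tendsto (t, m)).eventually (hP.loc a b t ha hb)
    have h2 : ∀ᶠ p : (↥Sᶜ) × G in 𝓝 (t, m), p.2 = m :=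
      (continuous_snd.tendsto (t, m)).eventually (p := fun x => x = m) (by simp)
    refine ContinuousAt.continuousWithinAt ?_
    refine (continuousAt_const (y := m * g a b t)).congr ?_
    filter_upwards [h1, h2] with p hp1 hp2
    rw [hp1, hp2]
  coordChange_comp a b c t ht m := by
    rw [mul_assoc, hP.coc a b c t ht.1.1 ht.1.2 ht.2]

theorem convex_Hp : Convex ℝ Hp := convex_halfSpace_im_gt 0

theorem isOpen_Hp : IsOpen Hp := isOpen_lt continuous_const Complex.continuous_im

theorem exists_cov [T2Space C] (hP : Per ε ρ S ch U g s) :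
    ∃ (E : Type) (_ : TopologicalSpace E) (_ : T2Space E) (π : E → C) (mk : A → E → G),
      IsCov S U g π mk := by
  let : TopologicalSpace G := ⊥
  have : DiscreteTopology G := ⟨rfl⟩
  set Z := core hP with hZ
  have hcov : IsCoveringMap Z.proj := FiberBundle.isCoveringMap (F := G) (E := Z.Fiber)
  have hSo : IsOpen (Sᶜ) := hP.fin.isClosed.isOpen_compl
  have hloc : ∀ a (e : Z.TotalSpace), (e.1 : C) ∈ U a →
      ∀ᶠ e' in 𝓝 e, (Z.localTriv a e').2 = (Z.localTriv a e).2 := by
    intro a e he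
    have h1 : ContinuousAt (Z.localTriv a) e :=
      (Z.localTriv a).toOpenPartialHomeomorph.continuousAt he
    exact (continuous_snd.continuousAt.comp h1).eventually
      (p := fun x => x = (Z.localTriv a e).2) (by simp)
  have ht2 : T2Space Z.TotalSpace := by
    refine ⟨fun e e' hne => ?_⟩
    by_cases h : Z.proj e = Z.proj e'
    · exact hcov.isSeparatedMap e e' h hne
    · exact separated_by_continuous hcov.continuous h
  refine ⟨Z.TotalSpace, inferInstance, ht2, fun e => (e.1 : C), fun a e => (Z.localTriv a e).2,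
    continuous_subtype_val.comp hcov.continuous, fun e => e.1.2, hloc, ?_, ?_, ?_, ?_, ?_, ?_⟩
  · intro a b e ha hb
    exact (Z.coordChange_comp (Z.indexAt e.1) a b e.1 ⟨⟨Z.mem_baseSet_at e.1, ha⟩, hb⟩ e.2).symm
  · intro a t m ht
    have hm : ((⟨t, hP.off a t ht⟩ : ↥Sᶜ), m) ∈ (Z.localTriv a).target :=
      (Z.mem_localTriv_target a _).2 ht
    refine ⟨(Z.localTriv a).toOpenPartialHomeomorph.symm (⟨t, hP.off a t ht⟩, m), rfl, ?_⟩
    exact congrArg Prod.snd ((Z.localTriv a).toOpenPartialHomeomorph.right_inv hm)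
  · intro a e e' ha h1 h2
    have h3 : e'.1 = e.1 := Subtype.ext h1
    have ha' : e' ∈ (Z.localTriv a).source := by
      show ((e'.1 : ↥Sᶜ) : C) ∈ U a
      rw [h3]; exact ha
    exact (Z.localTriv a).toOpenPartialHomeomorph.injOn ha' ha (Prod.ext h3 h2)
  · intro a e ha F h1 h2
    have h3 : Tendsto (fun e' : Z.TotalSpace => e'.1) F (𝓝 e.1) :=
      tendsto_subtype_rng.2 h1
    have h4 : Tendsto (Z.localTriv a) F (𝓝 (Z.localTriv a e)) := by
      refine Tendsto.prodMk_nhds h3 ?_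
      exact tendsto_nhds_of_eventually_eq h2
    have h5 : ∀ᶠ e' in F, e' ∈ (Z.localTriv a).source :=
      h3.eventually ((Z.isOpen_baseSet a).mem_nhds ha)
    have h6 := ((Z.localTriv a).toOpenPartialHomeomorph.continuousAt_symm
      ((Z.localTriv a).toOpenPartialHomeomorph.map_source ha)).tendsto.comp h4
    have h7 : (Z.localTriv a).toOpenPartialHomeomorph.symm
        ((Z.localTriv a).toOpenPartialHomeomorph e) = e :=
      (Z.localTriv a).toOpenPartialHomeomorph.left_inv ha
    rw [h7] at h6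
    have h8 : Tendsto id F (𝓝 e) := h6.congr' (h5.mono fun e' he' =>
      (Z.localTriv a).toOpenPartialHomeomorph.left_inv he')
    exact tendsto_id'.1 h8
  · intro e
    have h1 : IsLocalHomeomorph (fun e : Z.TotalSpace => ((e.1 : ↥Sᶜ) : C)) :=
      hSo.isOpenEmbedding_subtypeVal.isLocalHomeomorph.comp hcov.isLocalHomeomorph
    obtain ⟨Φ, h2, h3⟩ := h1 e
    exact ⟨Φ, h2, fun x _ => congrFun h3 x⟩
  · intro f z₀ e₀ hf hS hz he
    classical
    have : ContractibleSpace Hp := convex_Hp.contractibleSpace ⟨z₀, hz⟩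
    have := isOpen_Hp.locallyPathConnectedSpace
    let f' : C(Hp, ↥Sᶜ) := ⟨fun z => ⟨f z, hS z z.2⟩,
      (continuousOn_iff_continuous_domRestrict.1 hf).subtype_mk _⟩
    obtain ⟨L, ⟨h1, h2⟩, -⟩ := hcov.existsUnique_continuousMap_lifts f' ⟨z₀, hz⟩ e₀
      (Subtype.ext he)
    refine ⟨fun z => if h : z ∈ Hp then L ⟨z, h⟩ else e₀, ?_, ?_, ?_⟩
    · rw [continuousOn_iff_continuous_domRestrict]
      refine L.continuous.congr fun z => ?_
      simp
    · simp only [dif_pos hz]; exact h1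
    · intro z hz'
      simp only [dif_pos hz']
      exact congrArg Subtype.val (congrFun h2 ⟨z, hz'⟩)

end Vale.Agent.P301Z.Ry.Cov
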