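import Vale.Agent.P301Z.Ry.Defs

/-! P301, block RAY: linear algebra of the period domain. -/

open scoped Matrix

namespace Vale.Agent.P301Z.Ry

namespace Lin

variable {ε : ℝ} {M : Matrix (Fin 3) (Fin 3) ℝ}

theorem ent (h : Mᵀ * Qm ε * M = Qm ε) (i j : Fin 3) :
    M 0 i * M 2 j + M 2 i * M 0 j + ε * (M 1 i * M 1 j) = Qm ε i j := by
  rw [← congrFun (congrFun h i) j]
  simp [Matrix.mul_apply, Fin.sum_univ_three, Qm]
  ring

theorem entC (h : Mᵀ * Qm ε * M = Qm ε) (i j : Fin 3) :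
    (M 0 i : ℂ) * M 2 j + M 2 i * M 0 j + ε * (M 1 i * M 1 j) = (Qm ε i j : ℝ) := by
  exact_mod_cast ent h i j

theorem qf_ap (h : Mᵀ * Qm ε * M = Qm ε) (v w : Fin 3 → ℂ) :
    qf ε (ap M v) (ap M w) = qf ε v w := by
  have a00 : _ = ((0 : ℝ) : ℂ) := entC h 0 0
  have a01 : _ = ((0 : ℝ) : ℂ) := entC h 0 1
  have a02 : _ = ((1 : ℝ) : ℂ) := entC h 0 2
  have a10 : _ = ((0 : ℝ) : ℂ) := entC h 1 0
  have a11 : _ = ((ε : ℝ) : ℂ) := entC h 1 1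
  have a12 : _ = ((0 : ℝ) : ℂ) := entC h 1 2
  have a20 : _ = ((1 : ℝ) : ℂ) := entC h 2 0
  have a21 : _ = ((0 : ℝ) : ℂ) := entC h 2 1
  have a22 : _ = ((0 : ℝ) : ℂ) := entC h 2 2
  simp only [Complex.ofReal_zero, Complex.ofReal_one] at a00 a01 a02 a10 a12 a20 a21 a22
  simp only [qf, ap]
  linear_combination v 0 * w 0 * a00 + v 0 * w 1 * a01 + v 0 * w 2 * a02 + v 1 * w 0 * a10 +
    v 1 * w 1 * a11 + v 1 * w 2 * a12 + v 2 * w 0 * a20 + v 2 * w 1 * a21 + v 2 * w 2 * a22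

theorem star_ap (v : Fin 3 → ℂ) : star (ap M v) = ap M (star v) := by
  funext i
  simp [ap]

theorem qf_smul (a b : ℂ) (v w : Fin 3 → ℂ) : qf ε (a • v) (b • w) = a * b * qf ε v w := by
  simp only [qf, Pi.smul_apply, smul_eq_mul]
  ring

theorem qf_sg (τ : ℂ) : qf ε (sg ε τ) (sg ε τ) = 0 := by
  simp [qf, sg]
  ring

theorem qf_sg_star (τ : ℂ) : (qf ε (sg ε τ) (star (sg ε τ))).re = 2 * ε * τ.im ^ 2 := by
  simp [qf, sg, sq]
  ring

theorem dom_smul {k : ℂ} {v : Fin 3 → ℂ} (hk : k ≠ 0) (h : Dom ε v) : Dom ε (k • v) := by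
  refine ⟨by rw [qf_smul, h.1, mul_zero], ?_⟩
  rw [star_smul, qf_smul, RCLike.star_def, Complex.mul_conj, Complex.re_ofReal_mul]
  exact mul_pos (Complex.normSq_pos.2 hk) h.2

theorem dom_ap (h : Mᵀ * Qm ε * M = Qm ε) {v : Fin 3 → ℂ} (hv : Dom ε v) : Dom ε (ap M v) :=
  ⟨by rw [qf_ap h, hv.1], by rw [star_ap, qf_ap h]; exact hv.2⟩

theorem dom_sg (hε : 0 < ε) {τ : ℂ} (h : τ.im ≠ 0) : Dom ε (sg ε τ) :=
  ⟨qf_sg τ, by rw [qf_sg_star]; positivity⟩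

theorem ne2 (hε : 0 < ε) {v : Fin 3 → ℂ} (h : Dom ε v) : v 2 ≠ 0 := by
  intro h2
  have h1 := h.1
  have h3 := h.2
  have h0 : (ε : ℂ) ≠ 0 := Complex.ofReal_ne_zero.2 hε.ne'
  simp only [qf, h2, mul_zero, zero_mul, zero_add, mul_eq_zero, h0, false_or, or_self] at h1
  simp [qf, h1, h2] at h3

theorem eq_sg (hε : 0 < ε) {v : Fin 3 → ℂ} (h : Dom ε v) : v = v 2 • sg ε (tau v) := by
  have h2 := ne2 hε h
  have h1 := h.1
  simp only [qf] at h1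
  funext i
  fin_cases i
  · show v 0 = v 2 * -(ε * (v 1 / v 2) ^ 2 / 2)
    field_simp
    linear_combination h1
  · show v 1 = v 2 * (v 1 / v 2)
    field_simp
  · show v 2 = v 2 * 1
    rw [mul_one]

theorem im_ne (hε : 0 < ε) {v : Fin 3 → ℂ} (h : Dom ε v) : (tau v).im ≠ 0 := by
  intro h0
  have h1 := h.2
  rw [eq_sg hε h, star_smul, qf_smul, RCLike.star_def, Complex.mul_conj, Complex.re_ofReal_mul,
    qf_sg_star, h0] at h1
  simp at h1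

end Lin

theorem lin : LIN := fun _ hε =>
  ⟨fun _ h => ⟨Lin.ne2 hε h, Lin.im_ne hε h, Lin.eq_sg hε h⟩, fun _ h => Lin.dom_sg hε h,
    fun _ _ h hv => Lin.dom_ap h hv, fun _ _ hk h => Lin.dom_smul hk h⟩

end Vale.Agent.P301Z.Ry
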