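import Vale.Agent.P301Z.Ry.Per

/-! P301, block RAY: assembly from the rows. -/

open scoped Topology Matrix
open Filter Set Metric

namespace Vale.Agent.P301Z.Ry

/-- `RAY` with more output: the ray avoids a given countable set `R₀`, and the marked period is a
chart of the curve at every point of the ray. -/
def RAY2 : Prop :=
  ∀ (ε : ℝ) (G : Type) [Group G] (ρ : G →* Matrix (Fin 3) (Fin 3) ℝ)
    (C : Type) [TopologicalSpace C] [T2Space C] [CompactSpace C] [PreconnectedSpace C]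
    (S : Set C) (ch : C → OpenPartialHomeomorph C ℂ)
    (A : Type) (U : A → Set C) (g : A → A → C → G) (s : A → C → Fin 3 → ℂ),
    Arith ε ρ → Per ε ρ S ch U g s → ∀ R₀ : Set C, R₀.Countable →
    ∃ Z : Set ℝ, Z.Countable ∧ ∀ x T₀ : ℝ, x ∉ Z → 0 < T₀ → ∀ (a₀ : A) (t₀ : C) (g₀ : G),
      t₀ ∈ U a₀ → (∃ k : ℂ, ap (ρ g₀) (s a₀ t₀) = k • sg ε (x + T₀ * Complex.I)) →
      ∃ (t : ℝ → C) (μ : A → ℝ → G), t T₀ = t₀ ∧ μ a₀ T₀ = g₀ ∧
        Marked ε ρ S U g s (Ici T₀) t μ (fun T => x + T * Complex.I) ∧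
        (∀ T, T₀ ≤ T → t T ∉ R₀ ∧ ∀ a, t T ∈ U a → ∃ Φ : OpenPartialHomeomorph C ℂ,
          t T ∈ Φ.source ∧ EqOn (fun t' => tau (ap (ρ (μ a T)) (s a t'))) Φ Φ.source) ∧
        ∃ (c : C) (r h lam B T₁ : ℝ) (ν : A → ℂ → G) (P f : ℂ → ℂ) (γ : G) (ζ : ℝ → ℂ),
          c ∈ S ∧ 0 < r ∧ closedBall (ch c c) r ⊆ (ch c).target ∧
          (∀ w ∈ closedBall (ch c c) r, (ch c).symm w ∈ S → w = ch c c) ∧
          Marked ε ρ S U g s Hp (pt ch c r) ν P ∧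
          0 < h ∧ (lam = 1 ∨ lam = -1) ∧ ρ γ = lam • Um ε h ∧
          (∀ a, ∀ z ∈ Hp, pt ch c r z ∈ U a → ν a (z + 1) = γ * ν a z) ∧
          DifferentiableOn ℂ f (ball 0 1) ∧
          (∀ z ∈ Hp, 0 < (P z).im ∧ P z = h * z + f (Complex.exp (2 * Real.pi * Complex.I * z))) ∧
          (∀ z : ℂ, 1 ≤ z.im → |(P z).im - h * z.im| ≤ B) ∧
          T₀ ≤ T₁ ∧ ContinuousOn ζ (Ici T₁) ∧ Tendsto (fun T => (ζ T).im) atTop atTop ∧
          Tendsto t atTop (𝓝 c) ∧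
          ∀ T, T₁ ≤ T → ζ T ∈ Hp ∧ pt ch c r (ζ T) = t T ∧ P (ζ T) = x + T * Complex.I ∧
            ∀ a, t T ∈ U a → ν a (ζ T) = μ a T

theorem ray_of_ray2 (h : RAY2) : RAY := by
  intro ε G _ ρ C _ _ _ _ S ch A U g s hA hP
  obtain ⟨Z, hZ, h1⟩ := h ε G ρ C S ch A U g s hA hP ∅ countable_empty
  refine ⟨Z, hZ, fun x T₀ hx hT a₀ t₀ g₀ ht hk => ?_⟩
  obtain ⟨t, μ, e1, e2, e3, -, e4⟩ := h1 x T₀ hx hT a₀ t₀ g₀ ht hk
  exact ⟨t, μ, e1, e2, e3, e4⟩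

namespace Cov

variable {ε : ℝ} {G : Type} [Group G] {ρ : G →* Matrix (Fin 3) (Fin 3) ℝ}
  {C : Type} [TopologicalSpace C] {S : Set C} {ch : C → OpenPartialHomeomorph C ℂ}
  {A : Type} {U : A → Set C} {g : A → A → C → G} {s : A → C → Fin 3 → ℂ}
  {E : Type} [TopologicalSpace E] {π : E → C} {mk : A → E → G} {P : E → ℂ}

/-- Finite limit values. -/
def Lim (Q : ℂ → ℂ) : Set ℂ :=
  {τ : ℂ | 0 < τ.im ∧ ∃ F : Filter ℂ, F.NeBot ∧ Tendsto Complex.im F atTop ∧ Tendsto Q F (𝓝 τ)}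

/-- Finite limit values of all lifts of the punctured disc at `c`. -/
def LimAll (ch : C → OpenPartialHomeomorph C ℂ) (π : E → C) (P : E → ℂ) (c : C) (r : ℝ) : Set ℂ :=
  {τ | ∃ L : ℂ → E, ContinuousOn L Hp ∧ (∀ z ∈ Hp, π (L z) = pt ch c r z) ∧
    (∀ z ∈ Hp, 0 < (P (L z)).im) ∧ τ ∈ Lim fun z => P (L z)}

theorem I_mem : Complex.I ∈ Hp := by simp [Hp]

theorem limAll_countable [Countable G] (hL : LIN) (hM : LIM) (hA : Arith ε ρ)
    (hP : Per ε ρ S ch U g s) (hC : IsCov S U g π mk) (hQ : IsPer ρ U s π mk P) {c : C} {r : ℝ}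
    (hr : 0 < r) (h : closedBall (ch c c) r ⊆ (ch c).target) :
    (LimAll ch π P c r).Countable := by
  have h1 := fib_countable hP hC (countable_singleton (pt ch c r Complex.I))
  refine (h1.biUnion (t := fun e _ => {τ | ∃ L : ℂ → E, L Complex.I = e ∧ ContinuousOn L Hp ∧
    (∀ z ∈ Hp, π (L z) = pt ch c r z) ∧ (∀ z ∈ Hp, 0 < (P (L z)).im) ∧
    τ ∈ Lim fun z => P (L z)}) fun e _ => ?_).mono ?_
  · rcases Set.eq_empty_or_nonempty {τ | ∃ L : ℂ → E, L Complex.I = e ∧ ContinuousOn L Hp ∧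
      (∀ z ∈ Hp, π (L z) = pt ch c r z) ∧ (∀ z ∈ Hp, 0 < (P (L z)).im) ∧
      τ ∈ Lim fun z => P (L z)} with h0 | ⟨τ₀, L₀, e0, c0, l0, p0, -⟩
    · rw [h0]; exact countable_empty
    obtain ⟨γ, -, hγ⟩ := lift_mono hL hA hP hC hQ c0 l0
    refine (hM ε (ρ γ) _ hA.pos (hA.iso γ) (lift_diff hL hA hP hC hQ hr h c0 l0) p0 hγ).mono ?_
    rintro τ ⟨L, e1, c1, l1, -, hτ, F, hF, hi, hT⟩
    refine ⟨hτ, F, hF, hi, hT.congr' ?_⟩
    filter_upwards [hi.eventually (eventually_gt_atTop 0)] with z hz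
    rw [uniq hP hC convex_Hp.isPreconnected c1 c0
      (fun z hz => (l1 z hz).trans (l0 z hz).symm) I_mem (e1.trans e0.symm) z hz]
  · rintro τ ⟨L, c1, l1, p1, hτ⟩
    exact mem_biUnion (x := L Complex.I) (l1 _ I_mem) ⟨L, rfl, c1, l1, p1, hτ⟩

/-- A path in the covering space without cluster point off `S` ends in a lift of a punctured
disc. -/
theorem ends [T2Space C] [CompactSpace C] (hL : LIN) (hE : ESC) (hA : Arith ε ρ)
    (hP : Per ε ρ S ch U g s) (hC : IsCov S U g π mk) (hQ : IsPer ρ U s π mk P) {r : C → ℝ}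
    (hr : ∀ c, 0 < r c) (h1 : ∀ c, closedBall (ch c c) (r c) ⊆ (ch c).target)
    (h2 : ∀ c, ∀ w ∈ closedBall (ch c c) (r c), (ch c).symm w ∈ S → w = ch c c)
    {F : Filter ℝ} {J : Set ℝ} {γ : ℝ → E} (hF : F.NeBot) (hJ : J.OrdConnected)
    (h3 : ∀ T ∈ J, J ∩ Ioi T ∈ F) (h4 : ∀ V ∈ F, ∃ T ∈ J, J ∩ Ici T ⊆ V)
    (hγ : ContinuousOn γ J) (hp : ∀ T ∈ J, 0 < (P (γ T)).im)
    (hS : ∀ c, MapClusterPt c F (fun T => π (γ T)) → c ∈ S) :
    ∃ c ∈ S, Tendsto (fun T => π (γ T)) F (𝓝 c) ∧ ∃ T₁ ∈ J, ∃ (ζ : ℝ → ℂ) (L : ℂ → E),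
      ContinuousOn ζ (J ∩ Ici T₁) ∧ Tendsto (fun T => (ζ T).im) F atTop ∧
      ContinuousOn L Hp ∧ (∀ z ∈ Hp, π (L z) = pt ch c (r c) z) ∧
      (∀ z ∈ Hp, 0 < (P (L z)).im) ∧ ∀ T ∈ J, T₁ ≤ T → ζ T ∈ Hp ∧ L (ζ T) = γ T := by
  obtain ⟨c, hc, ht, T₁, hT₁, ζ, z1, z2, z3⟩ := hE C S ch r hP.fin hP.mem hr h1 F J
    (fun T => π (γ T)) hF hJ h3 h4 (hC.cont.comp_continuousOn hγ) (fun T _ => hC.off _) hS
  obtain ⟨L, l1, l2, l3⟩ := hC.lift (pt ch c (r c)) (ζ T₁) (γ T₁) (pt_cont (hr c) (h1 c))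
    (fun z hz => pt_off (hr c) (h2 c) hz) (z3 T₁ hT₁ le_rfl).1 (z3 T₁ hT₁ le_rfl).2.symm
  refine ⟨c, hc, ht, T₁, hT₁, ζ, L, z1, z2, l1, l3,
    lift_pos hL hA hP hC hQ l1 (z3 T₁ hT₁ le_rfl).1 (l2 ▸ hp T₁ hT₁),
    fun T hT hT' => ⟨(z3 T hT hT').1, ?_⟩⟩
  have hW : IsPreconnected (J ∩ Ici T₁) := (hJ.inter ordConnected_Ici).isPreconnected
  exact uniq hP hC hW (L₁ := fun T => L (ζ T))
    (l1.comp z1 fun T hT => (z3 T hT.1 hT.2).1) (hγ.mono inter_subset_left)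
    (fun T hT => (l3 _ (z3 T hT.1 hT.2).1).trans (z3 T hT.1 hT.2).2) ⟨hT₁, self_mem_Ici⟩ l2 T
    ⟨hT, hT'⟩

omit [TopologicalSpace E] in
theorem per_eq_act (hL : LIN) (hA : Arith ε ρ) (hP : Per ε ρ S ch U g s)
    (hQ : IsPer ρ U s π mk P) {a : A} {e : E} (ha : π e ∈ U a) :
    P e = act ε (ρ (mk a e)) (ph ρ s a 1 (π e)) := by
  rw [hQ.eq a e ha, ph, ph, ← tau_ap hL hA.pos _ (dom_ap hL hA hP ha 1), ← ap_mul, ← map_mul,
    mul_one]

theorem ph_im (hL : LIN) (hA : Arith ε ρ) (hP : Per ε ρ S ch U g s) {a : A} {t : C}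
    (ha : t ∈ U a) (m : G) : (ph ρ s a m t).im ≠ 0 :=
  ((hL ε hA.pos).1 _ (dom_ap hL hA hP ha m)).2.1

/-- A cluster point off `S` with a finite limit of the period lifts. -/
theorem cluster (hL : LIN) (hD : DISC) (hA : Arith ε ρ) (hP : Per ε ρ S ch U g s)
    (hC : IsCov S U g π mk) (hQ : IsPer ρ U s π mk P) {F : Filter ℝ} {γ : ℝ → E} {τ : ℂ}
    (hτ : τ.im ≠ 0) (hT : Tendsto (fun T => P (γ T)) F (𝓝 τ)) {c : C} (hc : c ∉ S)
    (h : MapClusterPt c F fun T => π (γ T)) : ∃ e, MapClusterPt e F γ := by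
  obtain ⟨a, ha⟩ := hP.cov c hc
  obtain ⟨u, hu, h1⟩ := mapClusterPt_iff_ultrafilter.1 h
  have h2 : ∀ᶠ T in (u : Filter ℝ), π (γ T) ∈ U a := h1.eventually ((hP.opn a).mem_nhds ha)
  obtain ⟨m, hm⟩ := (hD ε G ρ hA).2.2 ℝ u (fun T => ph ρ s a 1 (π (γ T))) (fun T => mk a (γ T))
    (ph ρ s a 1 c) τ (ph_im hL hA hP ha 1) hτ ((ph_cont hL hA hP ha 1).tendsto.comp h1)
    ((hT.mono_left hu).congr' (h2.mono fun T hT => per_eq_act hL hA hP hQ hT))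
  obtain ⟨e, e1, e2⟩ := hC.sur a c m ha
  refine ⟨e, mapClusterPt_iff_ultrafilter.2 ⟨u, hu, ?_⟩⟩
  refine hC.lim a e (e1 ▸ ha) (map γ u) ?_ ?_
  · rw [e1]; exact h1
  · rw [e2]; exact hm

omit [TopologicalSpace E] in
/-- No cluster point off `S` when the imaginary part of the period tends to infinity. -/
theorem no_cluster (hL : LIN) (hD : DISC) (hA : Arith ε ρ) (hP : Per ε ρ S ch U g s)
    (hQ : IsPer ρ U s π mk P) {F : Filter ℝ} {γ : ℝ → E}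
    (hT : Tendsto (fun T => (P (γ T)).im) F atTop) {c : C}
    (h : MapClusterPt c F fun T => π (γ T)) : c ∈ S := by
  by_contra hc
  obtain ⟨a, ha⟩ := hP.cov c hc
  obtain ⟨u, hu, h1⟩ := mapClusterPt_iff_ultrafilter.1 h
  have h2 : ∀ᶠ T in (u : Filter ℝ), π (γ T) ∈ U a := h1.eventually ((hP.opn a).mem_nhds ha)
  obtain ⟨B, hB⟩ := (hD ε G ρ hA).2.1 _ (ph_im hL hA hP ha 1)
  have h3 := ((ph_cont hL hA hP ha 1).tendsto.comp h1).eventually hB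
  have h4 := (hT.mono_left hu).eventually (eventually_gt_atTop B)
  obtain ⟨T, t1, t2, t3⟩ := (h2.and (h3.and h4)).exists
  have h5 := t2 (mk a (γ T))
  rw [per_eq_act hL hA hP hQ t1] at t3
  exact absurd (le_trans (le_abs_self _) h5) (not_le.2 t3)

theorem im_ray (x T : ℝ) : ((x : ℂ) + T * Complex.I).im = T := by simp

theorem re_ray (x T : ℝ) : ((x : ℂ) + T * Complex.I).re = x := by simp

end Cov

open Cov in
theorem ray2_of (hL : LIN) (hD : DISC) (hPa : PARA) (hS : SCH) (hM : LIM) (hN : NF) (hLi : LIFT)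
    (hE : ESC) (hCr : CRIT) : RAY2 := by
  intro ε G _ ρ C _ _ _ _ S ch A U g s hA hP R₀ hR₀
  obtain ⟨E, _, _, π, mk, hC⟩ := exists_cov hP
  obtain ⟨P, hQ⟩ := exists_per hL hA hP hC
  have := (hD ε G ρ hA).1
  obtain ⟨R, hR, hcr⟩ := hCr ε G ρ C S ch A U g s hA hP
  choose r hr h1 h2 using exists_rad (ch := ch) hP.fin hP.mem
  refine ⟨Complex.re '' (P '' (π ⁻¹' (R ∪ R₀)) ∪ ⋃ c ∈ S, LimAll ch π P c (r c)), ?_, ?_⟩
  · refine Countable.image (Countable.union ((fib_countable hP hC (hR.union hR₀)).image _) ?_) _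
    exact hP.fin.countable.biUnion fun c _ => limAll_countable hL hM hA hP hC hQ (hr c) (h1 c)
  intro x T₀ hx hT₀ a₀ t₀ g₀ ht₀ ⟨k, hk⟩
  obtain ⟨e₀, e1, e2⟩ := hC.sur a₀ t₀ g₀ ht₀
  have hk0 : k ≠ 0 := by
    rintro rfl
    have h := ((hL ε hA.pos).1 _ (dom_ap hL hA hP ht₀ g₀)).1
    rw [hk] at h
    simp at h
  have hP0 : P e₀ = x + T₀ * Complex.I := by
    rw [hQ.eq a₀ e₀ (e1 ▸ ht₀), e1, e2, ph, hk, tau_smul hk0, tau_sg]
  have hoff : ∀ e (T : ℝ), P e = x + T * Complex.I → π e ∉ R ∪ R₀ := fun e T he hm =>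
    hx ⟨P e, Or.inl ⟨e, hm, rfl⟩, by rw [he, re_ray]⟩
  have hray : Continuous fun T : ℝ => (x : ℂ) + T * Complex.I := by fun_prop
  obtain ⟨γ, g1, g2, g3⟩ := hLi E ℂ P (fun T : ℝ => (x : ℂ) + T * Complex.I) T₀ e₀
    (per_cont hL hA hP hC hQ) hray hP0
    (fun e T _ he => by
      obtain ⟨a, ha⟩ := hP.cov _ (hC.off e)
      obtain ⟨Φ, f1, f2⟩ := hcr a (π e) (mk a e) ha fun hm => hoff e T he (Or.inl hm)
      exact good hP hC hQ ha f1 f2)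
    (fun T₁ γ hT g1 g3 => by
      by_contra hno
      have hI : Ico T₀ T₁ ∈ 𝓝[<] T₁ := Ico_mem_nhdsLT hT
      have hτ : ((x : ℂ) + T₁ * Complex.I).im ≠ 0 := by
        rw [im_ray]; exact (hT₀.trans hT).ne'
      have hT' : Tendsto (fun T => P (γ T)) (𝓝[<] T₁) (𝓝 (x + T₁ * Complex.I)) :=
        ((hray.tendsto T₁).mono_left nhdsWithin_le_nhds).congr'
          (mem_of_superset hI fun T hT => (g3 T hT).symm)
      obtain ⟨c, hc, -, T₂, hT₂, ζ, L, -, z2, l1, l2, l3, l4⟩ :=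
        ends hL hE hA hP hC hQ hr h1 h2 (F := 𝓝[<] T₁) (J := Ico T₀ T₁) inferInstance
          ordConnected_Ico
          (fun T hT => mem_of_superset (Ioo_mem_nhdsLT hT.2) fun y hy =>
            ⟨⟨hT.1.trans hy.1.le, hy.2⟩, hy.1⟩)
          (fun V hV => by
            obtain ⟨l, hl, hV'⟩ := (mem_nhdsLT_iff_exists_Ioo_subset).1 hV
            obtain ⟨y, y1, y2⟩ := exists_between (max_lt hT (show l < T₁ from hl))
            exact ⟨y, ⟨(le_max_left _ _).trans y1.le, y2⟩, fun w hw =>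
              hV' ⟨((le_max_right _ _).trans_lt y1).trans_le hw.2, hw.1.2⟩⟩)
          g1 (fun T hT => by rw [g3 T hT, im_ray]; exact hT₀.trans_le hT.1)
          (fun c hc => by
            by_contra hcS
            exact hno (cluster hL hD hA hP hC hQ hτ hT' hcS hc))
      refine hx ⟨x + T₁ * Complex.I, Or.inr (mem_biUnion hc ⟨L, l1, l2, l3, ?_, map ζ (𝓝[<] T₁),
        inferInstance, z2, ?_⟩), re_ray x T₁⟩
      · rw [im_ray]; exact hT₀.trans hT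
      · refine hT'.congr' ?_
        filter_upwards [Ico_mem_nhdsLT hT₂.2] with T hT
        show P (γ T) = P (L (ζ T))
        rw [(l4 T ⟨hT₂.1.trans hT.1, hT.2⟩ hT.1).2])
  have him : Tendsto (fun T => (P (γ T)).im) atTop atTop :=
    tendsto_id.congr' ((eventually_ge_atTop T₀).mono fun T hT => by
      show T = (P (γ T)).im
      rw [g3 T hT, im_ray])
  obtain ⟨c, hc, ht, T₁, hT₁, ζ, L, z1, z2, l1, l2, l3, l4⟩ :=
    ends hL hE hA hP hC hQ hr h1 h2 (F := atTop) (J := Ici T₀) inferInstance ordConnected_Ici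
      (fun T _ => inter_mem (Ici_mem_atTop T₀) (Ioi_mem_atTop T))
      (fun V hV => by
        obtain ⟨l, hl⟩ := mem_atTop_sets.1 hV
        exact ⟨max T₀ l, mem_Ici.2 (le_max_left _ _), fun w hw => hl w ((le_max_right _ _).trans hw.2)⟩)
      g1 (fun T hT => by rw [g3 T hT, im_ray]; exact hT₀.trans_le hT)
      (fun c hc => no_cluster hL hD hA hP hQ him hc)
  obtain ⟨δ, d1, d2⟩ := lift_mono hL hA hP hC hQ l1 l2
  have hdiff := lift_diff hL hA hP hC hQ (hr c) (h1 c) l1 l2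
  have hev : ∀ᶠ T in atTop, ζ T ∈ Hp ∧ L (ζ T) = γ T :=
    (eventually_ge_atTop T₁).mono fun T hT => l4 T (hT₁.trans hT) hT
  have him' : Tendsto (fun T => (P (L (ζ T))).im) atTop atTop :=
    him.congr' (hev.mono fun T hT => by simp only [hT.2])
  have hm : ∀ z ∈ Hp, z + 1 ∈ Hp := fun z hz => by simpa [Hp] using hz
  obtain ⟨lam, h, p1, p2, p3⟩ := hPa ε G ρ hA δ ℝ atTop (fun T => P (L (ζ T))) inferInstance
    (hev.mono fun T hT => ⟨l3 _ hT.1, by rw [← d2 _ hT.1]; exact l3 _ (hm _ hT.1)⟩)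
    (tendsto_atTop_mono (fun T => (le_abs_self _).trans (Complex.abs_im_le_norm _)) him')
    (((hS _ hdiff l3 ℝ atTop ζ z2).2 him').congr' (hev.mono fun T hT => by rw [d2 _ hT.1]))
  obtain ⟨n1, f, B, n2, n3, n4⟩ := hN _ h hdiff l3 (fun z hz => by rw [d2 z hz, p3])
    ⟨map ζ atTop, inferInstance, z2, him'⟩
  refine ⟨fun T => π (γ T), fun a T => mk a (γ T), by simp only [g2, e1], by simp only [g2, e2],
    marked_of hL hA hP hC hQ g1 (fun _ _ => rfl) (fun T hT => g3 T hT), fun T hT => ⟨fun hm =>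
      hoff _ T (g3 T hT) (Or.inr hm), fun a ha =>
      hcr a _ _ ha fun hm => hoff _ T (g3 T hT) (Or.inl hm)⟩,
    c, r c, h, lam, B, T₁, fun a z => mk a (L z), fun z => P (L z), f, δ, ζ, hc, hr c, h1 c, h2 c,
    marked_of hL hA hP hC hQ l1 l2 (fun _ _ => rfl), n1, p1, p2, d1, n2,
    fun z hz => ⟨l3 z hz, n3 z hz⟩, n4, hT₁, z1.mono fun T hT => ⟨mem_Ici.2 (le_trans hT₁ hT), hT⟩, z2, ht,
    fun T hT => ?_⟩
  obtain ⟨q1, q2⟩ := l4 T (hT₁.trans hT) hT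
  refine ⟨q1, ?_, ?_, fun a _ => ?_⟩
  · rw [← l2 _ q1, q2]
  · simp only [q2]; exact g3 T (hT₁.trans hT)
  · simp only [q2]

end Vale.Agent.P301Z.Ry
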