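import Vale.Agent.P301Z.Ry.Cov

/-! P301, block RAY: the period function on the covering space. -/

open scoped Topology Matrix
open Filter Set Metric

namespace Vale.Agent.P301Z.Ry.Cov

variable {ε : ℝ} {G : Type} [Group G] {ρ : G →* Matrix (Fin 3) (Fin 3) ℝ}
  {C : Type} [TopologicalSpace C] {S : Set C} {ch : C → OpenPartialHomeomorph C ℂ}
  {A : Type} {U : A → Set C} {g : A → A → C → G} {s : A → C → Fin 3 → ℂ}
  {E : Type} [TopologicalSpace E] {π : E → C} {mk : A → E → G}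

theorem ap_mul (M N : Matrix (Fin 3) (Fin 3) ℝ) (v : Fin 3 → ℂ) :
    ap (M * N) v = ap M (ap N v) := by
  funext i
  simp only [ap, Matrix.mul_apply, Fin.sum_univ_three]
  push_cast
  ring

theorem ap_smul (M : Matrix (Fin 3) (Fin 3) ℝ) (k : ℂ) (v : Fin 3 → ℂ) :
    ap M (k • v) = k • ap M v := by
  funext i
  simp only [ap, Pi.smul_apply, smul_eq_mul]
  ring

theorem tau_smul {k : ℂ} (hk : k ≠ 0) (v : Fin 3 → ℂ) : tau (k • v) = tau v := by
  simp only [tau, Pi.smul_apply, smul_eq_mul]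
  exact mul_div_mul_left _ _ hk

theorem tau_sg (ε : ℝ) (τ : ℂ) : tau (sg ε τ) = τ := by
  simp [tau, sg]

theorem tau_ap (hL : LIN) (hε : 0 < ε) (M : Matrix (Fin 3) (Fin 3) ℝ) {v : Fin 3 → ℂ}
    (hv : Dom ε v) : tau (ap M v) = act ε M (tau v) := by
  obtain ⟨h1, -, h3⟩ := (hL ε hε).1 v hv
  conv_lhs => rw [h3]
  rw [ap_smul, tau_smul h1, act]

/-- The marked period in the chart `a` with marking `m`. -/
noncomputable def ph (ρ : G →* Matrix (Fin 3) (Fin 3) ℝ) (s : A → C → Fin 3 → ℂ) (a : A) (m : G)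
    (t : C) : ℂ := tau (ap (ρ m) (s a t))

theorem dom_ap (hL : LIN) (hA : Arith ε ρ) (hP : Per ε ρ S ch U g s) {a : A} {t : C}
    (ht : t ∈ U a) (m : G) : Dom ε (ap (ρ m) (s a t)) :=
  (hL ε hA.pos).2.2.1 _ _ (hA.iso m) (hP.dom a t ht)

theorem ph_chg (hL : LIN) (hA : Arith ε ρ) (hP : Per ε ρ S ch U g s) {a b : A} {t : C}
    (ha : t ∈ U a) (hb : t ∈ U b) (m : G) : ph ρ s b (m * g a b t) t = ph ρ s a m t := by
  obtain ⟨k, hk⟩ := hP.chg a b t ha hb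
  have hk0 : k ≠ 0 := by
    rintro rfl
    have h := ((hL ε hA.pos).1 _ (hP.dom a t ha)).1
    rw [hk] at h
    simp at h
  rw [ph, ph, map_mul, ap_mul, hk, ap_smul, tau_smul hk0]

theorem s_diff (hP : Per ε ρ S ch U g s) {a : A} {c : C} {w : ℂ} (hw : w ∈ (ch c).target)
    (ha : (ch c).symm w ∈ U a) (i : Fin 3) :
    DifferentiableAt ℂ (fun w => s a ((ch c).symm w) i) w :=
  (hP.hol a c i).differentiableAt
    (((ch c).isOpen_inter_preimage_symm (hP.opn a)).mem_nhds ⟨hw, ha⟩)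

theorem ph_diff (hL : LIN) (hA : Arith ε ρ) (hP : Per ε ρ S ch U g s) {a : A} {c : C} {w : ℂ}
    (hw : w ∈ (ch c).target) (ha : (ch c).symm w ∈ U a) (m : G) :
    DifferentiableAt ℂ (fun w => ph ρ s a m ((ch c).symm w)) w := by
  have h0 := s_diff hP hw ha 0
  have h1 := s_diff hP hw ha 1
  have h2 := s_diff hP hw ha 2
  have h3 := ((hL ε hA.pos).1 _ (dom_ap hL hA hP ha m)).1
  unfold ph tau
  refine DifferentiableAt.div ?_ ?_ h3
  · exact ((h0.const_mul _).add (h1.const_mul _)).add (h2.const_mul _)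
  · exact ((h0.const_mul _).add (h1.const_mul _)).add (h2.const_mul _)

theorem ph_cont (hL : LIN) (hA : Arith ε ρ) (hP : Per ε ρ S ch U g s) {a : A} {t : C}
    (ha : t ∈ U a) (m : G) : ContinuousAt (ph ρ s a m) t := by
  have h1 : (ch t).symm (ch t t) = t := (ch t).left_inv (hP.mem t)
  have h2 := (ph_diff hL hA hP ((ch t).map_source (hP.mem t)) (h1.symm ▸ ha) m).continuousAt
  have h3 := h2.comp ((ch t).continuousAt (hP.mem t))
  refine h3.congr ?_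
  filter_upwards [(ch t).open_source.mem_nhds (hP.mem t)] with y hy
  simp only [Function.comp_apply, (ch t).left_inv hy]

/-- The period function on the covering space. -/
structure IsPer (ρ : G →* Matrix (Fin 3) (Fin 3) ℝ) (U : A → Set C) (s : A → C → Fin 3 → ℂ)
    (π : E → C) (mk : A → E → G) (P : E → ℂ) : Prop where
  eq : ∀ a e, π e ∈ U a → P e = ph ρ s a (mk a e) (π e)

theorem exists_per (hL : LIN) (hA : Arith ε ρ) (hP : Per ε ρ S ch U g s)
    (hC : IsCov S U g π mk) : ∃ P : E → ℂ, IsPer ρ U s π mk P := by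
  choose ia hia using fun e => hP.cov (π e) (hC.off e)
  refine ⟨fun e => ph ρ s (ia e) (mk (ia e) e) (π e), ⟨fun a e ha => ?_⟩⟩
  rw [hC.chg a (ia e) e ha (hia e), ph_chg hL hA hP ha (hia e)]

variable {P : E → ℂ}

theorem per_near (hP : Per ε ρ S ch U g s) (hC : IsCov S U g π mk) (hQ : IsPer ρ U s π mk P)
    {a : A} {e : E} (ha : π e ∈ U a) : ∀ᶠ e' in 𝓝 e, P e' = ph ρ s a (mk a e) (π e') := by
  filter_upwards [hC.loc a e ha, hC.cont.continuousAt.eventually ((hP.opn a).mem_nhds ha)]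
    with e' h1 h2
  rw [hQ.eq a e' h2, h1]

theorem per_cont (hL : LIN) (hA : Arith ε ρ) (hP : Per ε ρ S ch U g s) (hC : IsCov S U g π mk)
    (hQ : IsPer ρ U s π mk P) : Continuous P := by
  refine continuous_iff_continuousAt.2 fun e => ?_
  obtain ⟨a, ha⟩ := hP.cov (π e) (hC.off e)
  have h1 := (ph_cont hL hA hP ha (mk a e)).comp hC.cont.continuousAt
  exact h1.congr ((per_near hP hC hQ ha).mono fun e' h => h.symm)

theorem per_im (hL : LIN) (hA : Arith ε ρ) (hP : Per ε ρ S ch U g s) (hC : IsCov S U g π mk)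
    (hQ : IsPer ρ U s π mk P) (e : E) : (P e).im ≠ 0 := by
  obtain ⟨a, ha⟩ := hP.cov (π e) (hC.off e)
  rw [hQ.eq a e ha]
  exact ((hL ε hA.pos).1 _ (dom_ap hL hA hP ha _)).2.1

theorem marked_of (hL : LIN) (hA : Arith ε ρ) (hP : Per ε ρ S ch U g s) (hC : IsCov S U g π mk)
    (hQ : IsPer ρ U s π mk P) {Y : Type} [TopologicalSpace Y] {W : Set Y} {γ : Y → E}
    (hγ : ContinuousOn γ W) {t : Y → C} {τ : Y → ℂ} (ht : ∀ y ∈ W, π (γ y) = t y)
    (hτ : ∀ y ∈ W, P (γ y) = τ y) :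
    Marked ε ρ S U g s W t (fun a y => mk a (γ y)) τ where
  cont := (hC.cont.comp_continuousOn hγ).congr fun y hy => (ht y hy).symm
  off y hy := ht y hy ▸ hC.off _
  loc a y hy ha := (hγ y hy).eventually (hC.loc a (γ y) (ht y hy ▸ ha))
  chg a b y hy ha hb := by
    rw [← ht y hy] at ha hb ⊢
    exact hC.chg a b _ ha hb
  per a y hy ha := by
    rw [← ht y hy] at ha ⊢
    obtain ⟨h1, -, h3⟩ := (hL ε hA.pos).1 _ (dom_ap hL hA hP ha (mk a (γ y)))
    refine ⟨_, h1, ?_⟩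
    rw [← hτ y hy, hQ.eq a _ ha]
    exact h3

/-- Two lifts of the same map differ by a constant. -/
theorem mono (hP : Per ε ρ S ch U g s) (hC : IsCov S U g π mk) {Y : Type} [TopologicalSpace Y]
    {W : Set Y} (hW : IsPreconnected W) {L₁ L₂ : Y → E} (h₁ : ContinuousOn L₁ W)
    (h₂ : ContinuousOn L₂ W) (h : ∀ y ∈ W, π (L₁ y) = π (L₂ y)) :
    ∃ γ : G, ∀ a, ∀ y ∈ W, π (L₂ y) ∈ U a → mk a (L₁ y) = γ * mk a (L₂ y) := by
  rcases W.eq_empty_or_nonempty with rfl | ⟨y₀, hy₀⟩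
  · exact ⟨1, fun _ _ hy => absurd hy (notMem_empty _)⟩
  choose ia hia using fun e => hP.cov (π e) (hC.off e)
  set δ : Y → G := fun y => mk (ia (L₂ y)) (L₁ y) * (mk (ia (L₂ y)) (L₂ y))⁻¹ with hδ
  have key : ∀ a, ∀ y ∈ W, π (L₂ y) ∈ U a → δ y = mk a (L₁ y) * (mk a (L₂ y))⁻¹ := by
    intro a y hy ha
    have e1 := hC.chg a (ia (L₂ y)) (L₂ y) ha (hia _)
    have e2 := hC.chg a (ia (L₂ y)) (L₁ y) (h y hy ▸ ha) (h y hy ▸ hia _)
    simp only [hδ]
    rw [e1, e2, h y hy]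
    group
  let _ : TopologicalSpace G := ⊥
  have _ : DiscreteTopology G := ⟨rfl⟩
  have hc : ContinuousOn δ W := by
    intro y hy
    have ha := hia (L₂ y)
    refine tendsto_nhds_of_eventually_eq ?_
    filter_upwards [(h₁ y hy).eventually (hC.loc _ (L₁ y) (h y hy ▸ ha)),
      (h₂ y hy).eventually (hC.loc _ (L₂ y) ha), self_mem_nhdsWithin,
      (h₂ y hy).eventually (hC.cont.continuousAt.eventually ((hP.opn _).mem_nhds ha))]
      with y' e1 e2 hy' ha'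
    rw [key _ y' hy' ha', e1, e2]
  refine ⟨δ y₀, fun a y hy ha => ?_⟩
  rw [← hW.constant hc hy hy₀, key a y hy ha]
  group

theorem uniq (hP : Per ε ρ S ch U g s) (hC : IsCov S U g π mk) {Y : Type} [TopologicalSpace Y]
    {W : Set Y} (hW : IsPreconnected W) {L₁ L₂ : Y → E} (h₁ : ContinuousOn L₁ W)
    (h₂ : ContinuousOn L₂ W) (h : ∀ y ∈ W, π (L₁ y) = π (L₂ y)) {y₀ : Y} (hy₀ : y₀ ∈ W)
    (h0 : L₁ y₀ = L₂ y₀) : ∀ y ∈ W, L₁ y = L₂ y := by
  obtain ⟨γ, hγ⟩ := mono hP hC hW h₁ h₂ h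
  obtain ⟨a₀, ha₀⟩ := hP.cov _ (hC.off (L₂ y₀))
  have e1 := hγ a₀ y₀ hy₀ ha₀
  rw [h0] at e1
  have e2 : γ = 1 := by simpa using e1
  intro y hy
  obtain ⟨a, ha⟩ := hP.cov _ (hC.off (L₂ y))
  refine hC.ext a _ _ ha (h y hy) ?_
  rw [hγ a y hy ha, e2, one_mul]

theorem per_act (hL : LIN) (hA : Arith ε ρ) (hP : Per ε ρ S ch U g s)
    (hQ : IsPer ρ U s π mk P) {a : A} {e e' : E} {γ : G} (ha : π e ∈ U a) (h : π e' = π e)
    (hm : mk a e' = γ * mk a e) : P e' = act ε (ρ γ) (P e) := by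
  rw [hQ.eq a e' (h ▸ ha), hQ.eq a e ha, hm, h, ph, ph, map_mul, ap_mul,
    tau_ap hL hA.pos _ (dom_ap hL hA hP ha _)]

theorem fib_countable [Countable G] (hP : Per ε ρ S ch U g s) (hC : IsCov S U g π mk)
    {R : Set C} (hR : R.Countable) : (π ⁻¹' R).Countable := by
  have h1 : π ⁻¹' R = ⋃ t ∈ R, π ⁻¹' {t} := by
    ext e; simp
  rw [h1]
  refine hR.biUnion fun t _ => ?_
  rcases (π ⁻¹' {t}).eq_empty_or_nonempty with h | ⟨e, he⟩
  · rw [h]; exact countable_empty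
  obtain ⟨a, ha⟩ := hP.cov _ (hC.off e)
  refine countable_of_injective_of_countable_image (f := mk a) ?_ (to_countable _)
  intro e₁ h₁ e₂ h₂ h
  have e1 : π e₁ = π e₂ := h₁.trans h₂.symm
  have e2 : π e₂ = π e := h₂.trans he.symm
  exact hC.ext a e₂ e₁ (e2 ▸ ha) e1 h

/-- A point over a non critical point has a chart given by the period. -/
theorem good (hP : Per ε ρ S ch U g s) (hC : IsCov S U g π mk) (hQ : IsPer ρ U s π mk P)
    {a : A} {e : E} (ha : π e ∈ U a) {Φ : OpenPartialHomeomorph C ℂ} (h1 : π e ∈ Φ.source)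
    (h2 : EqOn (ph ρ s a (mk a e)) Φ Φ.source) :
    ∃ Ψ : OpenPartialHomeomorph E ℂ, e ∈ Ψ.source ∧ EqOn P Ψ Ψ.source := by
  obtain ⟨Θ, h3, h4⟩ := hC.hom e
  obtain ⟨V, hV, hVo, heV⟩ := mem_nhds_iff.1 (per_near hP hC hQ ha)
  refine ⟨(Θ.trans Φ).restrOpen V hVo, ⟨⟨h3, ?_⟩, heV⟩, ?_⟩
  · show Θ e ∈ Φ.source
    rw [← h4 h3]; exact h1
  · rintro e' ⟨⟨h5, h6⟩, h7⟩
    have h8 : Θ e' ∈ Φ.source := h6
    show P e' = Φ (Θ e')
    rw [hV h7, ← h2 h8, h4 h5]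

/-! The punctured disc. -/

theorem norm_exp_lt {z : ℂ} (hz : z ∈ Hp) :
    ‖Complex.exp (2 * Real.pi * Complex.I * z)‖ < 1 := by
  rw [Complex.norm_exp, Real.exp_lt_one_iff]
  have h : (2 * Real.pi * Complex.I * z : ℂ).re = -(2 * Real.pi * z.im) := by simp
  rw [h]
  have h1 : 0 < z.im := hz
  have := Real.pi_pos
  have : 0 < 2 * Real.pi * z.im := by positivity
  linarith

theorem w_mem (w₀ : ℂ) {r : ℝ} (hr : 0 < r) {z : ℂ} (hz : z ∈ Hp) :
    w₀ + r * Complex.exp (2 * Real.pi * Complex.I * z) ∈ closedBall w₀ r := by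
  rw [mem_closedBall, dist_eq_norm, add_sub_cancel_left, norm_mul, Complex.norm_real,
    Real.norm_of_nonneg hr.le]
  exact mul_le_of_le_one_right hr.le (norm_exp_lt hz).le

theorem pt_add_one (c : C) (r : ℝ) (z : ℂ) : pt ch c r (z + 1) = pt ch c r z := by
  rw [pt, pt, mul_add, mul_one, Complex.exp_add, Complex.exp_two_pi_mul_I, mul_one]

theorem pt_cont {c : C} {r : ℝ} (hr : 0 < r) (h : closedBall (ch c c) r ⊆ (ch c).target) :
    ContinuousOn (pt ch c r) Hp :=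
  (ch c).continuousOn_symm.comp (by fun_prop) fun _ hz => h (w_mem _ hr hz)

theorem pt_off {c : C} {r : ℝ} (hr : 0 < r)
    (h : ∀ w ∈ closedBall (ch c c) r, (ch c).symm w ∈ S → w = ch c c) {z : ℂ} (hz : z ∈ Hp) :
    pt ch c r z ∉ S := by
  intro hS
  have h1 := h _ (w_mem _ hr hz) hS
  have h2 : (r : ℂ) * Complex.exp (2 * Real.pi * Complex.I * z) = 0 := by
    simpa using h1
  rcases mul_eq_zero.1 h2 with h3 | h3
  · exact hr.ne' (by exact_mod_cast h3)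
  · exact Complex.exp_ne_zero _ h3

theorem exists_rad (hS : S.Finite) (hm : ∀ c, c ∈ (ch c).source) (c : C) :
    ∃ r : ℝ, 0 < r ∧ closedBall (ch c c) r ⊆ (ch c).target ∧
      ∀ w ∈ closedBall (ch c c) r, (ch c).symm w ∈ S → w = ch c c := by
  have h1 : (((ch c) '' S) \ {ch c c}).Finite := (hS.image _).sdiff
  have h2 : (ch c).target ∩ (((ch c) '' S) \ {ch c c})ᶜ ∈ 𝓝 (ch c c) :=
    inter_mem ((ch c).open_target.mem_nhds ((ch c).map_source (hm c)))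
      (h1.isClosed.isOpen_compl.mem_nhds fun h => h.2 rfl)
  obtain ⟨r, hr, h3⟩ := nhds_basis_closedBall.mem_iff.1 h2
  refine ⟨r, hr, fun w hw => (h3 hw).1, fun w hw hS' => ?_⟩
  by_contra hne
  exact (h3 hw).2 ⟨⟨_, hS', (ch c).right_inv (h3 hw).1⟩, hne⟩

theorem lift_diff (hL : LIN) (hA : Arith ε ρ) (hP : Per ε ρ S ch U g s) (hC : IsCov S U g π mk)
    (hQ : IsPer ρ U s π mk P) {c : C} {r : ℝ} (hr : 0 < r)
    (h : closedBall (ch c c) r ⊆ (ch c).target) {L : ℂ → E} (hc : ContinuousOn L Hp)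
    (hl : ∀ z ∈ Hp, π (L z) = pt ch c r z) : DifferentiableOn ℂ (fun z => P (L z)) Hp := by
  intro z hz
  obtain ⟨a, ha⟩ := hP.cov _ (hC.off (L z))
  have hn := isOpen_Hp.mem_nhds hz
  have h1 := ph_diff hL hA hP (h (w_mem _ hr hz)) (a := a) (by
    have h2 := hl z hz
    rw [pt] at h2
    rw [← h2]; exact ha) (mk a (L z))
  have h3 : DifferentiableAt ℂ
      (fun z : ℂ => ch c c + r * Complex.exp (2 * Real.pi * Complex.I * z)) z := by fun_prop
  have h4 := h1.comp z h3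
  refine (h4.congr_of_eventuallyEq ?_).differentiableWithinAt
  filter_upwards [(hc.continuousAt hn).eventually (per_near hP hC hQ ha), hn] with z' e1 e2
  rw [e1, hl z' e2]
  rfl

theorem lift_mono (hL : LIN) (hA : Arith ε ρ) (hP : Per ε ρ S ch U g s) (hC : IsCov S U g π mk)
    (hQ : IsPer ρ U s π mk P) {c : C} {r : ℝ} {L : ℂ → E} (hc : ContinuousOn L Hp)
    (hl : ∀ z ∈ Hp, π (L z) = pt ch c r z) :
    ∃ γ : G, (∀ a, ∀ z ∈ Hp, pt ch c r z ∈ U a → mk a (L (z + 1)) = γ * mk a (L z)) ∧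
      ∀ z ∈ Hp, P (L (z + 1)) = act ε (ρ γ) (P (L z)) := by
  have hm : ∀ z ∈ Hp, z + 1 ∈ Hp := fun z hz => by simpa [Hp] using hz
  have h1 : ContinuousOn (fun z => L (z + 1)) Hp := hc.comp (by fun_prop) hm
  have h2 : ∀ z ∈ Hp, π (L (z + 1)) = π (L z) := fun z hz => by
    rw [hl _ (hm z hz), hl z hz, pt_add_one]
  obtain ⟨γ, hγ⟩ := mono hP hC convex_Hp.isPreconnected h1 hc h2
  refine ⟨γ, fun a z hz ha => hγ a z hz (hl z hz ▸ ha), fun z hz => ?_⟩
  obtain ⟨a, ha⟩ := hP.cov _ (hC.off (L z))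
  exact per_act hL hA hP hQ ha (h2 z hz) (hγ a z hz ha)

theorem lift_pos (hL : LIN) (hA : Arith ε ρ) (hP : Per ε ρ S ch U g s) (hC : IsCov S U g π mk)
    (hQ : IsPer ρ U s π mk P) {L : ℂ → E} (hc : ContinuousOn L Hp) {z₀ : ℂ} (h0 : z₀ ∈ Hp)
    (h1 : 0 < (P (L z₀)).im) : ∀ z ∈ Hp, 0 < (P (L z)).im := by
  intro z hz
  have h2 : ContinuousOn (fun z => (P (L z)).im) Hp :=
    (Complex.continuous_im.comp (per_cont hL hA hP hC hQ)).comp_continuousOn hc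
  by_contra hn
  obtain ⟨y, -, hy⟩ := convex_Hp.isPreconnected.intermediate_value hz h0 h2
    (show (0 : ℝ) ∈ Icc _ _ from ⟨not_lt.1 hn, h1.le⟩)
  exact per_im hL hA hP hC hQ _ hy

end Vale.Agent.P301Z.Ry.Cov
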