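import Vale.Agent.P301Z.Ry.Defs

/-! P301, block RAY: the Schwarz lemma at the cusp. -/

open scoped Topology
open Filter Set Metric

namespace Vale.Agent.P301Z.Ry

namespace Sch

/-- the bounded model -/
noncomputable def bb (P : ℂ → ℂ) (z : ℂ) : ℂ := (P z + Complex.I)⁻¹

theorem one_lt {w : ℂ} (h : 0 < w.im) : 1 < ‖w + Complex.I‖ :=
  lt_of_lt_of_le (by simpa using h) ((le_abs_self _).trans (Complex.abs_im_le_norm _))

theorem ne_zero {w : ℂ} (h : 0 < w.im) : w + Complex.I ≠ 0 :=
  norm_pos_iff.1 (one_pos.trans (one_lt h))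

variable {P : ℂ → ℂ}

theorem norm_bb (h : ∀ z ∈ Hp, 0 < (P z).im) {z : ℂ} (hz : z ∈ Hp) : ‖bb P z‖ < 1 := by
  rw [bb, norm_inv]
  exact inv_lt_one_of_one_lt₀ (one_lt (h z hz))

theorem diff_bb (hP : DifferentiableOn ℂ P Hp) (h : ∀ z ∈ Hp, 0 < (P z).im) :
    DifferentiableOn ℂ (bb P) Hp :=
  (hP.add_const _).inv fun z hz => ne_zero (h z hz)

theorem eq_bb (z : ℂ) : P z = (bb P z)⁻¹ - Complex.I := by rw [bb, inv_inv, add_sub_cancel_right]

theorem step (hP : DifferentiableOn ℂ P Hp) (h : ∀ z ∈ Hp, 0 < (P z).im) {z : ℂ} (hz : 1 < z.im) :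
    dist (bb P (z + 1)) (bb P z) ≤ 2 / z.im := by
  have h1 : ball z z.im ⊆ Hp := fun w hw => by
    have h2 := (Complex.abs_im_le_norm (w - z)).trans_lt (mem_ball_iff_norm.1 hw)
    rw [Complex.sub_im, abs_lt] at h2
    show 0 < w.im
    linarith [h2.1]
  have h2 := Complex.dist_le_div_mul_dist_of_mapsTo_ball (R₂ := 2) ((diff_bb hP h).mono h1)
    (fun w hw => by
      have h3 := norm_sub_le (bb P w) (bb P z)
      have h4 := norm_bb h (h1 hw)
      have h5 := norm_bb h (z := z) (one_pos.trans hz)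
      simp only [mem_closedBall, dist_eq_norm]
      linarith) (z := z + 1) (by simpa using hz)
  simpa using h2

theorem lim (hP : DifferentiableOn ℂ P Hp) (h : ∀ z ∈ Hp, 0 < (P z).im) {Y : Type} {F : Filter Y}
    {z : Y → ℂ} (hz : Tendsto (fun y => (z y).im) F atTop) {c : ℂ}
    (k : Tendsto (fun y => bb P (z y)) F (𝓝 c)) : Tendsto (fun y => bb P (z y + 1)) F (𝓝 c) := by
  refine k.congr_dist (squeeze_zero' (.of_forall fun _ => dist_nonneg) ?_ (hz.const_div_atTop 2))
  filter_upwards [hz.eventually_gt_atTop 1] with y hy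
  rw [dist_comm]
  exact step hP h hy

end Sch

open Sch

theorem sch : SCH := by
  intro P hP h Y F z hz
  refine ⟨fun τ hτ k => ?_, fun k => ?_⟩
  · have h1 := ((lim hP h hz ((k.add_const _).inv₀ (ne_zero hτ))).inv₀
      (inv_ne_zero (ne_zero hτ))).sub_const Complex.I
    rw [inv_inv, add_sub_cancel_right] at h1
    exact h1.congr fun y => (eq_bb _).symm
  · have h1 : Tendsto (fun y => bb P (z y)) F (𝓝 0) := by
      refine tendsto_zero_iff_norm_tendsto_zero.2 ?_
      simp only [bb, norm_inv]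
      refine Tendsto.inv_tendsto_atTop (tendsto_atTop_mono (fun y => ?_) k)
      refine le_trans ?_ ((le_abs_self _).trans (Complex.abs_im_le_norm _))
      simp
    have h2 : Tendsto (fun y => ‖bb P (z y + 1)‖) F (𝓝[>] 0) := by
      refine tendsto_nhdsWithin_iff.2 ⟨tendsto_zero_iff_norm_tendsto_zero.1 (lim hP h hz h1), ?_⟩
      filter_upwards [hz.eventually_gt_atTop 0] with y hy
      exact norm_pos_iff.2 (inv_ne_zero (ne_zero (h _ (by simpa [Hp] using hy))))
    refine tendsto_atTop_mono (fun y => ?_)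
      (tendsto_atTop_add_const_right _ (-1) (tendsto_inv_nhdsGT_zero.comp h2))
    have h3 := norm_add_le (P (z y + 1)) Complex.I
    simp only [Function.comp, bb, norm_inv, inv_inv, Complex.norm_I] at h3 ⊢
    linarith

end Vale.Agent.P301Z.Ry
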