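import Vale.Agent.P301Z.Ry.Main
import Vale.Agent.P273.H599.Inj

/-! P301, block RAY: tools for the users of `RAY2`. -/

open scoped Topology Matrix
open Filter Set Metric

namespace Vale.Agent.P301Z.Ry

open Cov

variable {ε : ℝ} {G : Type} [Group G] {ρ : G →* Matrix (Fin 3) (Fin 3) ℝ}
  {C : Type} [TopologicalSpace C] {S : Set C} {ch : C → OpenPartialHomeomorph C ℂ}
  {A : Type} {U : A → Set C} {g : A → A → C → G} {s : A → C → Fin 3 → ℂ}

/-- If the marked period is a chart `Φ` near `t`, its inverse is holomorphic. -/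
theorem sec_analytic (hL : LIN) (hA : Arith ε ρ) (hP : Per ε ρ S ch U g s) {a : A} {m : G} {t : C}
    (ha : t ∈ U a) {Φ : OpenPartialHomeomorph C ℂ} (h1 : t ∈ Φ.source)
    (h2 : EqOn (fun t' => tau (ap (ρ m) (s a t'))) Φ Φ.source) {c : C} (hc : t ∈ (ch c).source) :
    AnalyticAt ℂ (fun τ => ch c (Φ.symm τ)) (Φ t) := by
  have hUo : IsOpen ((ch c).target ∩ (ch c).symm ⁻¹' U a) :=
    (ch c).isOpen_inter_preimage_symm (hP.opn a)
  set Ψ := ((ch c).symm.trans Φ).restrOpen _ hUo with hΨ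
  have hd : DifferentiableOn ℂ Ψ Ψ.source := by
    intro w hw
    refine ((ph_diff hL hA hP hw.2.1 hw.2.2 m).congr_of_eventuallyEq ?_).differentiableWithinAt
    filter_upwards [Ψ.open_source.mem_nhds hw] with w' hw'
    exact (h2 hw'.1.2).symm
  have hd' : DifferentiableOn ℂ Ψ.symm Ψ.target := fun τ hτ =>
    (Ψ.hasDerivAt_symm hτ
      (Vale.Agent.P273.H599.injOn_deriv_ne_zero Ψ.open_source hd Ψ.injOn (Ψ.map_target hτ))
      (hd.differentiableAt (Ψ.open_source.mem_nhds (Ψ.map_target hτ))).hasDerivAt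
      ).differentiableAt.differentiableWithinAt
  have h3 : (ch c).symm (ch c t) = t := (ch c).left_inv hc
  have h4 : ch c t ∈ Ψ.source := by
    refine ⟨⟨(ch c).map_source hc, ?_⟩, (ch c).map_source hc, ?_⟩
    · show (ch c).symm (ch c t) ∈ Φ.source
      rw [h3]; exact h1
    · show (ch c).symm (ch c t) ∈ U a
      rw [h3]; exact ha
  have h5 : Ψ (ch c t) = Φ t := by
    show Φ ((ch c).symm (ch c t)) = Φ t
    rw [h3]
  have h6 := hd'.analyticAt (Ψ.open_target.mem_nhds (Ψ.map_source h4))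
  rw [h5] at h6
  exact h6

/-- The marked period of a marked map. -/
theorem Marked.tau_eq {Y : Type} [TopologicalSpace Y] {W : Set Y} {t : Y → C} {μ : A → Y → G}
    {τ : Y → ℂ} (h : Marked ε ρ S U g s W t μ τ) {a : A} {y : Y} (hy : y ∈ W) (ha : t y ∈ U a) :
    tau (ap (ρ (μ a y)) (s a (t y))) = τ y := by
  obtain ⟨k, hk, e⟩ := h.per a y hy ha
  rw [e, tau_smul hk, tau_sg]

/-- A marked map is locally the inverse of the period chart. -/
theorem Marked.eq_symm (hP : Per ε ρ S ch U g s) {Y : Type} [TopologicalSpace Y] {W : Set Y}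
    {t : Y → C} {μ : A → Y → G} {τ : Y → ℂ} (h : Marked ε ρ S U g s W t μ τ) {a : A} {y : Y}
    (hy : y ∈ W) (ha : t y ∈ U a) {Φ : OpenPartialHomeomorph C ℂ} (h1 : t y ∈ Φ.source)
    (h2 : EqOn (fun t' => tau (ap (ρ (μ a y)) (s a t'))) Φ Φ.source) :
    ∀ᶠ y' in 𝓝[W] y, t y' ∈ U a ∧ t y' ∈ Φ.source ∧ μ a y' = μ a y ∧ Φ (t y') = τ y' ∧
      t y' = Φ.symm (τ y') := by
  filter_upwards [h.loc a y hy ha, (h.cont y hy).eventually ((hP.opn a).mem_nhds ha),
    (h.cont y hy).eventually (Φ.open_source.mem_nhds h1), self_mem_nhdsWithin]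
    with y' e1 e2 e3 hy'
  have e4 : Φ (t y') = τ y' := by
    rw [← h2 e3, ← h.tau_eq hy' e2, e1]
  exact ⟨e2, e3, e1, e4, by rw [← e4, Φ.left_inv e3]⟩

theorem Um_mul (ε h h' : ℝ) : Um ε h * Um ε h' = Um ε (h + h') := by
  ext i j
  fin_cases i <;> fin_cases j <;> simp [Um, Matrix.mul_apply, Fin.sum_univ_three] <;> ring

theorem Um_zero (ε : ℝ) : Um ε 0 = 1 := by
  ext i j
  fin_cases i <;> fin_cases j <;> simp [Um]

theorem Um_pow (ε h : ℝ) (n : ℕ) : Um ε h ^ n = Um ε (n * h) := by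
  induction n with
  | zero => simp [Um_zero]
  | succ n ih => rw [pow_succ, ih, Um_mul]; congr 1; push_cast; ring

theorem ap_Um (ε h : ℝ) (τ : ℂ) : ap (Um ε h) (sg ε τ) = sg ε (τ + h) := by
  funext i
  fin_cases i <;> simp [ap, Um, sg]
  ring

/-- Vectors fixed by `Um ε h`, `h ≠ 0`, are multiples of `l`. -/
theorem fix_Um (hε : ε ≠ 0) {h : ℝ} (hh : h ≠ 0) {v : Fin 3 → ℂ} (hv : ap (Um ε h) v = v) :
    v 1 = 0 ∧ v 2 = 0 := by
  have h0 := congrFun hv 0
  have h1 := congrFun hv 1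
  simp [ap, Um] at h0 h1
  have h2 : v 2 = 0 := h1.resolve_left hh
  refine ⟨?_, h2⟩
  rw [h2] at h0
  simpa [hε, hh] using h0

/-- Vectors fixed by a positive power of the monodromy are multiples of `l`. -/
theorem fix_pow (hε : ε ≠ 0) {h lam : ℝ} (hh : h ≠ 0) (hl : lam = 1 ∨ lam = -1) {γ : G}
    (hγ : ρ γ = lam • Um ε h) {n : ℕ} (hn : 0 < n) {v : Fin 3 → ℂ} (hv : ap (ρ (γ ^ n)) v = v) :
    v 1 = 0 ∧ v 2 = 0 := by
  have h1 : ap (ρ (γ ^ n) * ρ (γ ^ n)) v = v := by rw [ap_mul, hv, hv]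
  have h2 : lam ^ n * lam ^ n = 1 := by
    rw [← mul_pow]
    rcases hl with rfl | rfl <;> simp
  rw [map_pow, hγ, smul_pow, Um_pow, smul_mul_smul_comm, h2, one_smul, Um_mul] at h1
  refine fix_Um hε ?_ h1
  have h3 : (0 : ℝ) < n := by exact_mod_cast hn
  intro h4
  have h5 : (2 * n) * h = 0 := by linarith
  exact hh ((mul_eq_zero.1 h5).resolve_left (by positivity))

end Vale.Agent.P301Z.Ry
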